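import Mathlib

/-! Hypothesis (i) of the problem, on the Lie algebra of a connected reductive group. -/

namespace Vale.Agent.Q008

open scoped TensorProduct

variable {ι X Y : Type*} [AddCommGroup X] [AddCommGroup Y]

/-- The structure carried by `g = Lie G` for a connected reductive group `G` over `k` with maximal
torus `T` and root datum `P` (characters `X`, cocharacters `Y`): `Lie T = k ⊗ Y`, root vectors
`e i`, and `g = Lie T ⊕ ⨁ k e_i` with the usual brackets. -/
structure LieG (P : RootDatum ι X Y) (k g : Type*) [Field k] [LieRing g] [LieAlgebra k g] where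
  t : k ⊗[ℤ] Y →ₗ[k] g
  e : ι → g
  bij : Function.Bijective (t.coprod (Finsupp.linearCombination k e))
  lie_t_t : ∀ a b, ⁅t a, t b⁆ = 0
  lie_t_e : ∀ (y : Y) (i : ι), ⁅t (1 ⊗ₜ y), e i⁆ = ((P.root' i y : ℤ) : k) • e i
  lie_e_neg : ∀ i j, P.root j = -P.root i → ⁅e i, e j⁆ = t (1 ⊗ₜ P.coroot i)
  lie_e_e : ∀ i j, P.root j ≠ -P.root i →
    ⁅e i, e j⁆ ∈ Submodule.span k (e '' {l | P.root l = P.root i + P.root j})

variable {P : RootDatum ι X Y} {k g : Type*} [Field k] [LieRing g] [LieAlgebra k g]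

/-- `Lie M` for the Levi subgroup `M = Z_G(lam)` of a cocharacter `lam` of `T`. -/
noncomputable def LieG.levi (L : LieG P k g) (lam : Y) : Submodule k g :=
  LinearMap.range L.t ⊔ Submodule.span k (L.e '' {i | P.root' i lam = 0})

/-- The centre of `M`: elements of `M` whose bracket with every element of `M` vanishes. -/
def centre (M : Submodule k g) : Submodule k g where
  carrier := {x | x ∈ M ∧ ∀ y ∈ M, ⁅x, y⁆ = 0}
  zero_mem' := ⟨M.zero_mem, fun y _ => zero_lie y⟩
  add_mem' := fun ha hb => ⟨M.add_mem ha.1 hb.1, fun y hy => by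
    rw [add_lie, ha.2 y hy, hb.2 y hy, add_zero]⟩
  smul_mem' := fun c _ ha => ⟨M.smul_mem c ha.1, fun y hy => by
    rw [smul_lie, ha.2 y hy, smul_zero]⟩

/-- `u` is the adjoint action on `g` of the point `y(c)` of `T(k)`. -/
def LieG.IsAdT (L : LieG P k g) (y : Y) (c : kˣ) (u : g →ₗ[k] g) : Prop :=
  (∀ a, u (L.t a) = L.t a) ∧ ∀ i, u (L.e i) = ((c ^ P.root' i y : kˣ) : k) • L.e i

/-- Hypothesis (i), with invariance asked only under `ad g` and `Ad T(k)`. -/
structure LieG.HypI (L : LieG P k g) (B : LinearMap.BilinForm k g) : Prop where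
  symm : B.IsSymm
  nondeg : B.Nondegenerate
  ad_inv : ∀ x y z, B ⁅x, y⁆ z = B x ⁅y, z⁆
  torus_inv : ∀ y c u, L.IsAdT y c u → ∀ x x', B (u x) (u x') = B x x'
  levi_nondeg : ∀ lam : Y, (B.restrict (centre (L.levi lam))).Nondegenerate

/-- The root `i` as an element of the weight lattice `Hom(ℤΦ^∨, ℤ)`. -/
noncomputable def rootWt (P : RootDatum ι X Y) (i : ι) :
    Submodule.span ℤ (Set.range P.coroot) →ₗ[ℤ] ℤ :=
  (P.root' i).domRestrict _

/-- `p` is very good: `Hom(ℤΦ^∨, ℤ) / ℤΦ'` has no `p`-torsion for every subset `Φ'` of roots. -/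
def VeryGood (P : RootDatum ι X Y) (p : ℕ) : Prop :=
  ∀ (s : Set ι) (f : Submodule.span ℤ (Set.range P.coroot) →ₗ[ℤ] ℤ),
    (p : ℤ) • f ∈ Submodule.span ℤ (rootWt P '' s) → f ∈ Submodule.span ℤ (rootWt P '' s)

end Vale.Agent.Q008
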