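import Vale.Agent.Q008.WeylFree

/-! Finiteness of the Weyl group, elements of prime order, and the rank `p-1` Levi subsystem. -/

namespace Vale.Agent.Q008

open Set Function

lemma exists_avoid {M J : Type*} [AddCommGroup M] [Finite J] (f : J → (M →ₗ[ℤ] ℤ))
    (h : ∀ i, ∃ x, f i x ≠ 0) : ∃ x, ∀ i, f i x ≠ 0 := by
  classical
  have := Fintype.ofFinite J
  suffices H : ∀ s : Finset J, ∃ x, ∀ i ∈ s, f i x ≠ 0 by
    obtain ⟨x, hx⟩ := H Finset.univ
    exact ⟨x, fun i => hx i (Finset.mem_univ i)⟩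
  intro s
  induction s using Finset.induction_on with
  | empty => exact ⟨0, by simp⟩
  | insert j s hj ih =>
    obtain ⟨x, hx⟩ := ih
    obtain ⟨y, hy⟩ := h j
    set n : ℤ := 1 + ∑ i, |f i x| with hn
    have big : ∀ i, f i y ≠ 0 → f i (x + n • y) ≠ 0 := by
      intro i hi h0
      rw [map_add, map_zsmul, smul_eq_mul] at h0
      have h1 : |f i x| ≤ ∑ i, |f i x| :=
        Finset.single_le_sum (f := fun i => |f i x|) (fun _ _ => abs_nonneg _) (Finset.mem_univ i)
      have h2 : f i x = -(n * f i y) := by linarith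
      have h3 : 1 ≤ |f i y| := Int.one_le_abs hi
      have hn0 : 0 < n := by have := abs_nonneg (f i x); omega
      have h4 : |f i x| = n * |f i y| := by rw [h2, abs_neg, abs_mul, abs_of_pos hn0]
      nlinarith
    refine ⟨x + n • y, fun i hi => ?_⟩
    rcases Finset.mem_insert.mp hi with rfl | hi
    · exact big _ hy
    · by_cases hiy : f i y = 0
      · rw [map_add, map_zsmul, hiy, smul_zero, add_zero]; exact hx i hi
      · exact big i hiy

variable {ι X Y : Type*} [AddCommGroup X] [AddCommGroup Y] (P : RootDatum ι X Y)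

lemma exists_pair_ne {y : Y} (hy : y ≠ 0) : ∃ x : X, P.toLinearMap x y ≠ 0 := by
  by_contra h
  push Not at h
  apply hy
  apply (LinearMap.IsPerfPair.bijective_right P.toLinearMap).1
  ext x
  simp [h x]

include P in
lemma exists_dual_avoid {J : Type*} [Finite J] (v : J → Y) (hv : ∀ i, v i ≠ 0) :
    ∃ F : Y →ₗ[ℤ] ℤ, ∀ i, F (v i) ≠ 0 := by
  obtain ⟨x, hx⟩ := exists_avoid (fun i => P.toLinearMap.flip (v i))
    (fun i => exists_pair_ne P (hv i))
  exact ⟨P.toLinearMap x, hx⟩

/-- if `y` pairs into `nℤ` with all characters, it is divisible by `n` -/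
lemma dvd_of_pair {y : Y} {n : ℤ} (hn : n ≠ 0) (h : ∀ x : X, n ∣ P.toLinearMap x y) :
    ∃ y' : Y, y = n • y' := by
  choose c hc using h
  let g : X →ₗ[ℤ] ℤ := AddMonoidHom.toIntLinearMap
    { toFun := c
      map_zero' := by
        have := hc 0
        simp only [map_zero, LinearMap.zero_apply] at this
        exact (mul_eq_zero.mp this.symm).resolve_left hn
      map_add' := fun a b => by
        have := hc (a + b)
        rw [map_add, LinearMap.add_apply, hc a, hc b, ← mul_add] at this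
        exact (mul_left_cancel₀ hn this).symm }
  obtain ⟨y', hy'⟩ := (LinearMap.IsPerfPair.bijective_right P.toLinearMap).2 g
  refine ⟨y', (LinearMap.IsPerfPair.bijective_right P.toLinearMap).1 ?_⟩
  ext x
  have : P.toLinearMap x y' = c x := by
    have := congrArg (fun φ => φ x) hy'
    simpa [g] using this
  simp [this, hc x]

variable [Finite ι] [P.IsReduced]

lemma finite_WY : Finite (WY P) := by
  obtain ⟨F, hF⟩ := exists_dual_avoid P P.coroot (fun i => P.ne_zero' i)
  choose φ hφ using fun (g : WY P) (i : ι) => exists_carries P g.2 i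
  refine Finite.of_injective φ fun g h hgh => ?_
  have : (g⁻¹ * h : WY P).1 = 1 := by
    refine eq_one_of_pos P F hF (g⁻¹ * h).2 fun i hi => ?_
    have e : h.1 (P.coroot i) = g.1 (P.coroot i) := by
      rw [(hφ g i).1, (hφ h i).1, hgh]
    have : (g⁻¹ * h : WY P).1 (P.coroot i) = P.coroot i := by
      change g.1⁻¹ (h.1 (P.coroot i)) = _
      rw [e]
      exact g.1.symm_apply_apply _
    rwa [this]
  have h2 : g⁻¹ * h = 1 := Subtype.ext this
  exact inv_mul_eq_one.mp h2

omit [Finite ι] [P.IsReduced] in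
lemma card_weyl : Nat.card P.weylGroup = Nat.card (WY P) := by
  have hinj : Injective ((RootPairing.Equiv.coweightHom P).domRestrict P.weylGroup) :=
    fun a b hab => Subtype.ext (RootPairing.Equiv.coweightHom_injective P hab)
  rw [Nat.card_congr (MonoidHom.ofInjective hinj).toEquiv, P.range_weylGroup_coweightHom]
  have : Subgroup.closure (range (MulOpposite.op ∘ P.coreflection)) = (WY P).op := by
    rw [WY, Subgroup.op_closure]
    congr 1
    ext x
    constructor
    · rintro ⟨i, rfl⟩; exact ⟨i, rfl⟩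
    · rintro ⟨i, hi⟩; exact ⟨i, by simp [hi]⟩
  rw [this]
  exact (Nat.card_congr (Subgroup.equivOp _)).symm

/-- An element `w ≠ 1` of `W` with `w^p = 1` has a coroot whose orbit sums to zero. -/
lemma exists_elliptic {w : Y ≃ₗ[ℤ] Y} (hw : w ∈ WY P) {p : ℕ} (hp : w ^ p = 1) (h1 : w ≠ 1) :
    ∃ b, ∑ i ∈ Finset.range p, (w ^ i) (P.coroot b) = 0 := by
  by_contra hcon
  push Not at hcon
  obtain ⟨f, hf⟩ := exists_dual_avoid P _ hcon
  let F : Y →ₗ[ℤ] ℤ := f ∘ₗ ∑ i ∈ Finset.range p, (w ^ i : Y ≃ₗ[ℤ] Y).toLinearMap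
  have hFa : ∀ y, F y = f (∑ i ∈ Finset.range p, (w ^ i) y) := by
    intro y
    simp only [F, LinearMap.comp_apply, LinearMap.sum_apply, LinearEquiv.coe_coe]
  have hinv : ∀ y, F (w y) = F y := by
    intro y
    rw [hFa, hFa]
    congr 1
    have h2 := Finset.sum_range_succ (fun i => (w ^ i) y) p
    have h3 := Finset.sum_range_succ' (fun i => (w ^ i) y) p
    simp only [hp, pow_zero, pow_succ, LinearEquiv.mul_apply] at h2 h3
    exact add_right_cancel (h3.symm.trans h2)
  exact h1 (eq_one_of_pos P F (fun i => by rw [hFa]; exact hf i) hw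
    (fun i hi => by rwa [hinv]))

/-- saturation of a subgroup -/
def sat (M : Submodule ℤ Y) : Submodule ℤ Y where
  carrier := {y | ∃ n : ℤ, n ≠ 0 ∧ n • y ∈ M}
  zero_mem' := ⟨1, one_ne_zero, by simp⟩
  add_mem' := by
    rintro a b ⟨n, hn, ha⟩ ⟨m, hm, hb⟩
    refine ⟨n * m, mul_ne_zero hn hm, ?_⟩
    rw [smul_add]
    refine M.add_mem ?_ ?_
    · rw [mul_comm, mul_smul]; exact M.smul_mem _ ha
    · rw [mul_smul]; exact M.smul_mem _ hb
  smul_mem' := by
    rintro c a ⟨n, hn, ha⟩
    exact ⟨n, hn, by rw [smul_comm]; exact M.smul_mem _ ha⟩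

lemma le_sat (M : Submodule ℤ Y) : M ≤ sat M := fun y hy => ⟨1, one_ne_zero, by simpa using hy⟩

lemma mem_sat_of_smul {M : Submodule ℤ Y} {n : ℤ} (hn : n ≠ 0) {y : Y} (h : n • y ∈ sat M) :
    y ∈ sat M := by
  obtain ⟨m, hm, h⟩ := h
  exact ⟨m * n, mul_ne_zero hm hn, by rwa [mul_smul]⟩

omit [P.IsReduced] in
/-- A root vanishing on the common kernel of some roots has its coroot in the rational span of
their coroots. -/
lemma coroot_mem_sat {J : Type*} [Fintype J] (b : J → ι) (a : ι)
    (h : ∀ y, (∀ j, P.root' (b j) y = 0) → P.root' a y = 0) :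
    P.coroot a ∈ sat (Submodule.span ℤ (range (P.coroot ∘ b))) := by
  classical
  have := Fintype.ofFinite ι
  have := tfY P
  have := tfX P
  let φ : Y →ₗ[ℤ] (J → ℤ) := LinearMap.pi fun j => P.root' (b j)
  have hker : LinearMap.ker φ ≤ LinearMap.ker (P.root' a) := by
    intro y hy
    exact h y fun j => congrFun (LinearMap.mem_ker.mp hy) j
  let g0 : LinearMap.range φ →ₗ[ℤ] ℤ :=
    ((LinearMap.ker φ).liftQ (P.root' a) hker) ∘ₗ φ.quotKerEquivRange.symm.toLinearMap
  have hg0 : ∀ y, g0 ⟨φ y, LinearMap.mem_range_self φ y⟩ = P.root' a y := by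
    intro y
    simp only [g0, LinearMap.comp_apply, LinearEquiv.coe_coe]
    rw [LinearMap.quotKerEquivRange_symm_apply_image]
    rfl
  obtain ⟨G, hG⟩ := (Module.Baer.of_divisible ℚ).extension_property (LinearMap.range φ).subtype
    Subtype.val_injective ((Algebra.linearMap ℤ ℚ) ∘ₗ g0)
  have hGφ : ∀ y, G (φ y) = (P.root' a y : ℚ) := by
    intro y
    have := congrArg (fun ψ => ψ ⟨φ y, LinearMap.mem_range_self φ y⟩) hG
    simpa [hg0] using this
  let q : J → ℚ := fun j => G (Pi.single j 1)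
  have hq : ∀ y, (P.root' a y : ℚ) = ∑ j, (P.root' (b j) y : ℚ) * q j := by
    intro y
    rw [← hGφ]
    have : φ y = ∑ j, P.root' (b j) y • (Pi.single j 1 : J → ℤ) := by
      ext j
      simp [φ, Finset.sum_apply, Pi.single_apply]
    rw [this, map_sum]
    refine Finset.sum_congr rfl fun j _ => ?_
    rw [map_zsmul, zsmul_eq_mul]
  set D : ℤ := ∏ j, ((q j).den : ℤ) with hD
  have hD0 : D ≠ 0 := Finset.prod_ne_zero_iff.mpr fun j _ => by exact_mod_cast (q j).den_ne_zero
  have hint : ∀ j, ∃ c : ℤ, (c : ℚ) = D * q j := by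
    intro j
    obtain ⟨e, he⟩ : ((q j).den : ℤ) ∣ D := Finset.dvd_prod_of_mem _ (Finset.mem_univ j)
    refine ⟨e * (q j).num, ?_⟩
    rw [he]
    push_cast
    rw [mul_comm ((q j).den : ℚ), mul_assoc, Rat.den_mul_eq_num]
  choose c hc using hint
  have hroot : D • P.root a = ∑ j, c j • P.root (b j) := by
    apply (LinearMap.IsPerfPair.bijective_left P.toLinearMap).1
    ext y
    simp only [map_zsmul, map_sum, LinearMap.smul_apply, LinearMap.sum_apply, smul_eq_mul]
    have := hq y
    apply Int.cast_injective (α := ℚ)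
    push_cast
    simp only [RootPairing.root'] at this
    rw [this, Finset.mul_sum]
    refine Finset.sum_congr rfl fun j _ => ?_
    rw [hc]; ring
  have hpol := congrArg (fun x => (2 : ℕ) • P.Polarization x) hroot
  simp only [map_zsmul, map_sum, Finset.smul_sum] at hpol
  have hne : P.RootForm (P.root a) (P.root a) ≠ 0 :=
    RootPairing.IsAnisotropic.rootForm_root_ne_zero a
  refine ⟨D * P.RootForm (P.root a) (P.root a), mul_ne_zero hD0 hne, ?_⟩
  rw [mul_smul, P.rootForm_self_smul_coroot, smul_comm, hpol]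
  refine Submodule.sum_mem _ fun j _ => ?_
  rw [smul_comm, ← P.rootForm_self_smul_coroot]
  exact Submodule.smul_mem _ _ (Submodule.smul_mem _ _ (Submodule.subset_span ⟨j, rfl⟩))

omit [P.IsReduced] in
/-- A cocharacter whose centraliser is the Levi subgroup generated by the given roots. -/
lemma exists_levi {J : Type*} [Fintype J] (b : J → ι) :
    ∃ lam : Y, (∀ j, P.root' (b j) lam = 0) ∧ ∀ a, P.root' a lam = 0 →
      P.coroot a ∈ sat (Submodule.span ℤ (range (P.coroot ∘ b))) := by
  let K : Submodule ℤ Y := ⨅ j, LinearMap.ker (P.root' (b j))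
  let S := {a : ι // P.coroot a ∉ sat (Submodule.span ℤ (range (P.coroot ∘ b)))}
  obtain ⟨x, hx⟩ := exists_avoid (M := K) (J := S) (fun a => (P.root' a.1).domRestrict K) (by
    intro a
    by_contra hcon
    push Not at hcon
    refine a.2 (coroot_mem_sat P b a.1 fun y hy => ?_)
    exact hcon ⟨y, by simpa [K] using hy⟩)
  refine ⟨x.1, fun j => ?_, fun a ha => ?_⟩
  · have := x.2
    simp only [K, Submodule.mem_iInf, LinearMap.mem_ker] at this
    exact this j
  · by_contra hcon
    exact hx ⟨a, hcon⟩ ha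

lemma finrank_sat_le [Module.Finite ℤ Y] [Module.IsTorsionFree ℤ Y] (M : Submodule ℤ Y) :
    Module.finrank ℤ (sat M) ≤ Module.finrank ℤ M := by
  obtain ⟨s, hs⟩ := IsNoetherian.noetherian (sat M)
  have : ∀ y : s, ∃ n : ℤ, n ≠ 0 ∧ n • (y : Y) ∈ M := fun y => by
    have : (y : Y) ∈ sat M := hs ▸ Submodule.subset_span y.2
    exact this
  choose n hn0 hn using this
  set N : ℤ := ∏ y, n y with hN
  have hN0 : N ≠ 0 := Finset.prod_ne_zero_iff.mpr fun y _ => hn0 y
  have hall : ∀ y ∈ sat M, N • y ∈ M := by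
    intro y hy
    rw [← hs] at hy
    induction hy using Submodule.span_induction with
    | mem x hx =>
      obtain ⟨e, he⟩ : n ⟨x, hx⟩ ∣ N := Finset.dvd_prod_of_mem _ (Finset.mem_univ _)
      rw [he, mul_comm, mul_smul]
      exact M.smul_mem _ (hn ⟨x, hx⟩)
    | zero => simp
    | add x y _ _ hx hy => rw [smul_add]; exact M.add_mem hx hy
    | smul a x _ hx => rw [smul_comm]; exact M.smul_mem _ hx
  let f : sat M →ₗ[ℤ] M := LinearMap.codRestrict M (N • (sat M).subtype) fun y => hall y y.2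
  refine LinearMap.finrank_le_finrank_of_injective (f := f) fun a b hab => ?_
  have : N • (a : Y) = N • (b : Y) := congrArg Subtype.val hab
  exact Subtype.ext (smul_right_injective Y hN0 this)

open Polynomial in
lemma geom_identity {p : ℕ} (hp : p.Prime) : ∃ h : ℤ[X],
    ∑ i ∈ Finset.range p, (Polynomial.X : ℤ[X]) ^ i =
      (Polynomial.X - 1 : ℤ[X]) ^ (p - 1) + (p : ℤ[X]) * (1 + (Polynomial.X - 1) * h) := by
  obtain ⟨r, hr⟩ := exists_add_pow_prime_eq hp (Polynomial.X - 1 : ℤ[X]) 1
  have hne : (Polynomial.X - 1 : ℤ[X]) ≠ 0 := by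
    simpa using Polynomial.X_sub_C_ne_zero (1 : ℤ)
  have h1 : ∑ i ∈ Finset.range p, (Polynomial.X : ℤ[X]) ^ i =
      (Polynomial.X - 1 : ℤ[X]) ^ (p - 1) + (p : ℤ[X]) * r := by
    apply mul_left_cancel₀ hne
    rw [mul_geom_sum, mul_add, ← pow_succ', Nat.sub_add_cancel hp.pos]
    rw [sub_add_cancel] at hr
    rw [hr]; ring
  have h2 : r.eval 1 = 1 := by
    have := congrArg (Polynomial.eval 1) h1
    have hp1 : p - 1 ≠ 0 := by have := hp.two_le; omega
    simp [Polynomial.eval_finsetSum, hp1] at this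
    have hp0 : (p : ℤ) ≠ 0 := by exact_mod_cast hp.ne_zero
    exact (mul_left_cancel₀ hp0 (this.symm.trans (mul_one _).symm))
  have h3 : (Polynomial.X - C 1 : ℤ[X]) ∣ r - 1 := by
    rw [Polynomial.dvd_iff_isRoot]; simp [h2]
  obtain ⟨h, hh⟩ := h3
  refine ⟨h, ?_⟩
  rw [h1]
  congr 2
  rw [map_one] at hh
  rw [← hh]; ring

end Vale.Agent.Q008
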