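import Vale.Agent.Q008.Defs
import Vale.Agent.Q008.Lattice

/-! Hypothesis (i) forces `p ∤ |W|`. -/

namespace Vale.Agent.Q008

open Set Function
open scoped TensorProduct

/-- A unipotent isometry with one Jordan block of even size on `L` has an invariant vector in
every nonzero stable subspace which is orthogonal to `L`. -/
lemma jordan {k V : Type*} [Field k] [AddCommGroup V] [Module k V] (B : LinearMap.BilinForm k V)
    (hB : ∀ x y, B x y = B y x) (w : Module.End k V) (hw : ∀ x y, B (w x) (w y) = B x y)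
    (h2 : (2 : k) ≠ 0) {m : ℕ} (hm : Odd m) (L : Submodule k V) [Module.Finite k L]
    (hL : ∀ x ∈ L, w x ∈ L) (hN : ∀ x ∈ L, ((w - 1) ^ (m + 1)) x = 0) {v : V} (hv : v ∈ L)
    (hv0 : ((w - 1) ^ m) v ≠ 0) (hdim : Module.finrank k L ≤ m + 1)
    (S : Submodule k V) (hS : S ≤ L) (hSw : ∀ x ∈ S, w x ∈ S) {z0 : V} (hz0 : z0 ∈ S)
    (hz00 : z0 ≠ 0) : ∃ z ∈ S, z ≠ 0 ∧ ∀ y ∈ L, B y z = 0 := by
  classical
  set N : Module.End k V := w - 1 with hNdef
  have hNx : ∀ x, N x = w x - x := fun x => rfl
  have hNL : ∀ x ∈ L, N x ∈ L := fun x hx => L.sub_mem (hL x hx) hx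
  have hNS : ∀ x ∈ S, N x ∈ S := fun x hx => S.sub_mem (hSw x hx) hx
  have hNpL : ∀ j, ∀ x ∈ L, (N ^ j) x ∈ L := by
    intro j
    induction j with
    | zero => simp
    | succ j ih => intro x hx; rw [pow_succ', Module.End.mul_apply]; exact hNL _ (ih x hx)
  have hNpS : ∀ j, ∀ x ∈ S, (N ^ j) x ∈ S := by
    intro j
    induction j with
    | zero => simp
    | succ j ih => intro x hx; rw [pow_succ', Module.End.mul_apply]; exact hNS _ (ih x hx)
  have hNge : ∀ j, m + 1 ≤ j → ∀ x ∈ L, (N ^ j) x = 0 := by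
    intro j hj x hx
    obtain ⟨d, rfl⟩ := Nat.exists_eq_add_of_le hj
    rw [add_comm, pow_add, Module.End.mul_apply, hN x hx, map_zero]
  -- linear independence of the chain
  have hli : LinearIndependent k (fun i : Fin (m + 1) => (⟨(N ^ (i : ℕ)) v, hNpL _ v hv⟩ : L)) := by
    apply LinearIndependent.of_comp L.subtype
    rw [Fintype.linearIndependent_iff]
    intro c hc
    simp only [comp_apply, Submodule.subtype_apply] at hc
    by_contra hcon
    push Not at hcon
    have hne : (Finset.univ.filter fun i => c i ≠ 0).Nonempty := by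
      obtain ⟨i, hi⟩ := hcon
      exact ⟨i, by simpa using hi⟩
    set i0 := (Finset.univ.filter fun i => c i ≠ 0).min' hne with hi0
    have hi0c : c i0 ≠ 0 := by
      have := Finset.min'_mem _ hne
      simpa using this
    have hlt : ∀ i, i < i0 → c i = 0 := by
      intro i hi
      by_contra h
      exact absurd (Finset.min'_le (Finset.univ.filter fun i => c i ≠ 0) i (by simpa using h))
        (not_le.mpr hi)
    have h1 := congrArg (N ^ (m - i0)) hc
    rw [map_sum, map_zero, Finset.sum_eq_single i0] at h1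
    · rw [map_smul, ← Module.End.mul_apply, ← pow_add, Nat.sub_add_cancel (by omega)] at h1
      exact hv0 ((smul_eq_zero.mp h1).resolve_left hi0c)
    · intro i _ hi
      rcases lt_or_gt_of_ne hi with h | h
      · rw [hlt i h, zero_smul, map_zero]
      · rw [map_smul, ← Module.End.mul_apply, ← pow_add, hNge _ _ v hv, smul_zero]
        have : (i0 : ℕ) < i := h
        have := i0.2
        omega
    · simp
  have hspan : Submodule.span k
      (range fun i : Fin (m + 1) => (⟨(N ^ (i : ℕ)) v, hNpL _ v hv⟩ : L)) = ⊤ := by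
    apply hli.span_eq_top_of_card_eq_finrank'
    have := hli.fintype_card_le_finrank
    simp only [Fintype.card_fin] at this ⊢
    omega
  have hcyc : ∀ x ∈ L, ∃ a : k, ∃ x' ∈ L, x = a • v + N x' := by
    intro x hx
    have : (⟨x, hx⟩ : L) ∈ Submodule.span k
        (range fun i : Fin (m + 1) => (⟨(N ^ (i : ℕ)) v, hNpL _ v hv⟩ : L)) := by
      rw [hspan]; trivial
    suffices H : ∀ y : L, y ∈ Submodule.span k
        (range fun i : Fin (m + 1) => (⟨(N ^ (i : ℕ)) v, hNpL _ v hv⟩ : L)) →
        ∃ a : k, ∃ x' ∈ L, (y : V) = a • v + N x' from H _ this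
    intro y hy
    induction hy using Submodule.span_induction with
    | mem y hy =>
      obtain ⟨⟨i, hi⟩, rfl⟩ := hy
      cases i with
      | zero => exact ⟨1, 0, L.zero_mem, by simp⟩
      | succ i => exact ⟨0, (N ^ i) v, hNpL _ v hv, by simp [pow_succ']⟩
    | zero => exact ⟨0, 0, L.zero_mem, by simp⟩
    | add y z _ _ hy hz =>
      obtain ⟨a, x, hx, e⟩ := hy
      obtain ⟨b, x', hx', e'⟩ := hz
      refine ⟨a + b, x + x', L.add_mem hx hx', ?_⟩
      rw [Submodule.coe_add, e, e', add_smul, map_add]; abel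
    | smul c y _ hy =>
      obtain ⟨a, x, hx, e⟩ := hy
      refine ⟨c * a, c • x, L.smul_mem c hx, ?_⟩
      rw [Submodule.coe_smul, e, smul_add, map_smul, mul_smul]
  -- an invariant vector of `S`
  have hex : ∃ j, (N ^ j) z0 = 0 := ⟨m + 1, hN z0 (hS hz0)⟩
  have hj0 : Nat.find hex ≠ 0 := by
    intro h
    have := Nat.find_spec hex
    rw [h] at this
    exact hz00 (by simpa using this)
  obtain ⟨j, hj⟩ := Nat.exists_eq_succ_of_ne_zero hj0
  set z := (N ^ j) z0 with hz
  have hzne : z ≠ 0 := Nat.find_min hex (by omega)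
  have hNz : N z = 0 := by
    have := Nat.find_spec hex
    rw [hj, pow_succ', Module.End.mul_apply] at this
    exact this
  have hzS : z ∈ S := hNpS j z0 hz0
  have hdeep : ∀ i, i ≤ m → ∃ x ∈ L, z = (N ^ i) x := by
    intro i
    induction i with
    | zero => exact fun _ => ⟨z, hS hzS, by simp⟩
    | succ i ih =>
      intro hi
      obtain ⟨x, hx, e⟩ := ih (by omega)
      obtain ⟨a, x', hx', e'⟩ := hcyc x hx
      have h1 : (N ^ (m - i)) z = 0 := by
        obtain ⟨d, hd⟩ : ∃ d, m - i = d + 1 := ⟨m - i - 1, by omega⟩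
        rw [hd, pow_succ, Module.End.mul_apply, hNz, map_zero]
      rw [e, ← Module.End.mul_apply, ← pow_add, Nat.sub_add_cancel (by omega), e', map_add,
        map_smul, ← Module.End.mul_apply, ← pow_succ, hN x' hx', add_zero] at h1
      have ha : a = 0 := (smul_eq_zero.mp h1).resolve_right hv0
      refine ⟨x', hx', ?_⟩
      rw [e, e', ha, zero_smul, zero_add, pow_succ, Module.End.mul_apply]
  obtain ⟨x, hx, ezx⟩ := hdeep m le_rfl
  obtain ⟨a, x', hx', ex⟩ := hcyc x hx
  have hzu : z = a • (N ^ m) v := by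
    rw [ezx, ex, map_add, map_smul, ← Module.End.mul_apply, ← pow_succ, hN x' hx', add_zero]
  have hadj : ∀ a b, B (N a) (w b) = - B a (N b) := by
    intro a b
    rw [hNx, hNx, map_sub, map_sub, LinearMap.sub_apply, hw]; ring
  have hcomm : Commute w N := by
    rw [hNdef]; exact (Commute.refl w).sub_right (Commute.one_right w)
  have hadjp : ∀ i, ∀ a b, B ((N ^ i) a) ((w ^ i) b) = (-1) ^ i * B a ((N ^ i) b) := by
    intro i
    induction i with
    | zero => simp
    | succ i ih =>
      intro a b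
      rw [pow_succ' N, pow_succ' w, Module.End.mul_apply, Module.End.mul_apply, hadj,
        ← Module.End.mul_apply N, ← (hcomm.pow_left i).eq, Module.End.mul_apply, ih,
        ← Module.End.mul_apply (N ^ i), ← pow_succ, ← pow_succ', pow_succ (-1 : k)]
      ring
  set u := (N ^ m) v with hu
  have hwu : w u = u := by
    have : N u = 0 := by rw [hu, ← Module.End.mul_apply, ← pow_succ', hN v hv]
    rw [hNx] at this
    exact sub_eq_zero.mp this
  have hwpu : ∀ i, ∀ y, B u ((w ^ i) y) = B u y := by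
    intro i
    induction i with
    | zero => simp
    | succ i ih =>
      intro y
      rw [pow_succ', Module.End.mul_apply, ← ih y]
      conv_lhs => rw [← hwu]
      exact hw _ _
  have hvu : B v u = 0 := by
    have h1 := hadjp m v v
    rw [← hu, hwpu, hm.neg_one_pow, hB u v] at h1
    have : (2 : k) * B v u = 0 := by linear_combination h1
    exact (mul_eq_zero.mp this).resolve_left h2
  refine ⟨z, hzS, hzne, fun y hy => ?_⟩
  obtain ⟨b, y', -, ey⟩ := hcyc y hy
  have hwz : w z = z := by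
    rw [hNx] at hNz
    exact sub_eq_zero.mp hNz
  have h3 : B (N y') z = 0 := by
    rw [← hwz, hadj, hNz, map_zero, neg_zero]
  rw [ey, map_add, LinearMap.add_apply, h3, hzu]
  simp [hvu]

variable {ι X Y : Type*} [AddCommGroup X] [AddCommGroup Y] {P : RootDatum ι X Y}
  {k g : Type*} [Field k] [LieRing g] [LieAlgebra k g]

variable (k) in
/-- differential of a character -/
noncomputable def dch (f : Y →ₗ[ℤ] ℤ) : k ⊗[ℤ] Y →ₗ[k] k :=
  (TensorProduct.AlgebraTensorModule.rid ℤ k k).toLinearMap ∘ₗ f.baseChange k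

lemma dch_tmul (f : Y →ₗ[ℤ] ℤ) (a : k) (y : Y) : dch k f (a ⊗ₜ y) = a * (f y : k) := by
  simp [dch, mul_comm]

namespace LieG

variable (L : LieG P k g)

lemma decomp (x : g) : ∃ a, ∃ c : ι →₀ k, x = L.t a + Finsupp.linearCombination k L.e c := by
  obtain ⟨⟨a, c⟩, h⟩ := L.bij.2 x
  exact ⟨a, c, h.symm⟩

lemma indep {a : k ⊗[ℤ] Y} {c : ι →₀ k} (h : L.t a + Finsupp.linearCombination k L.e c = 0) :
    a = 0 ∧ c = 0 := by
  have := L.bij.1 (a₁ := (a, c)) (a₂ := 0) (by simpa using h)
  exact Prod.mk_eq_zero.mp this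

lemma t_inj {a : k ⊗[ℤ] Y} (h : L.t a = 0) : a = 0 :=
  (L.indep (c := 0) (by simpa using h)).1

lemma e_ne (i : ι) : L.e i ≠ 0 := by
  intro h
  have := (L.indep (a := 0) (c := Finsupp.single i 1) (by simp [h])).2
  simp at this

lemma lie_t_e' (a : k ⊗[ℤ] Y) (i : ι) : ⁅L.t a, L.e i⁆ = dch k (P.root' i) a • L.e i := by
  induction a using TensorProduct.induction_on with
  | zero => simp
  | tmul c y =>
    have : c ⊗ₜ[ℤ] y = c • ((1 : k) ⊗ₜ[ℤ] y) := by rw [TensorProduct.smul_tmul', smul_eq_mul, mul_one]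
    rw [dch_tmul, this, map_smul, smul_lie, L.lie_t_e, smul_smul]
  | add a b ha hb => rw [map_add, add_lie, ha, hb, map_add, add_smul]

lemma exists_adT (y : Y) (c : kˣ) : ∃ u, L.IsAdT y c u := by
  let E := LinearEquiv.ofBijective _ L.bij
  refine ⟨(L.t.coprod (Finsupp.linearCombination k fun i =>
    ((c ^ P.root' i y : kˣ) : k) • L.e i)) ∘ₗ E.symm.toLinearMap, fun a => ?_, fun i => ?_⟩
  · have : L.t a = E (a, 0) := by simp [E]
    conv_lhs => rw [this]
    simp only [LinearMap.comp_apply, LinearEquiv.coe_coe, LinearEquiv.symm_apply_apply]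
    simp
  · have : L.e i = E (0, Finsupp.single i 1) := by simp [E]
    conv_lhs => rw [this]
    simp only [LinearMap.comp_apply, LinearEquiv.coe_coe, LinearEquiv.symm_apply_apply]
    simp

variable {L} {B : LinearMap.BilinForm k g} (H : L.HypI B) [Infinite k]

omit [LieRing g] [LieAlgebra k g] in
lemma exists_unit_zpow_ne {n : ℤ} (hn : n ≠ 0) : ∃ c : kˣ, ((c ^ n : kˣ) : k) ≠ 1 := by
  classical
  by_contra hcon
  push Not at hcon
  have hm : 0 < n.natAbs := Int.natAbs_pos.mpr hn
  have hfin : Set.Finite {x : k | x ^ n.natAbs = 1} := by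
    refine (Polynomial.nthRoots n.natAbs (1 : k)).toFinset.finite_toSet.subset ?_
    intro x hx
    simpa [Polynomial.mem_nthRoots hm] using hx
  have hsub : (Set.univ : Set k) ⊆ insert 0 {x : k | x ^ n.natAbs = 1} := by
    intro x _
    by_cases hx : x = 0
    · exact Or.inl hx
    · right
      have h1 : (Units.mk0 x hx) ^ n = 1 := Units.ext (hcon _)
      have h2 : (Units.mk0 x hx) ^ n.natAbs = 1 := by
        rw [← zpow_natCast]
        rcases Int.natAbs_eq n with h | h
        · rw [← h, h1]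
        · rw [show (n.natAbs : ℤ) = -n by omega, zpow_neg, h1, inv_one]
      simpa using congrArg Units.val h2
  exact Set.infinite_univ ((hfin.insert 0).subset hsub)

omit [LieRing g] [LieAlgebra k g] [Infinite k] in
lemma exists_pair_ne' {x : X} (hx : x ≠ 0) : ∃ y : Y, P.toLinearMap x y ≠ 0 := by
  by_contra h
  push Not at h
  apply hx
  apply (LinearMap.IsPerfPair.bijective_left P.toLinearMap).1
  ext y
  simp [h y]

include H

lemma B_t_e (a : k ⊗[ℤ] Y) (i : ι) : B (L.t a) (L.e i) = 0 := by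
  obtain ⟨c, hc⟩ := exists_unit_zpow_ne (k := k) (n := P.root' i (P.coroot i)) (by simp)
  obtain ⟨u, hu⟩ := L.exists_adT (P.coroot i) c
  have := H.torus_inv _ _ u hu (L.t a) (L.e i)
  rw [hu.1, hu.2, map_smul, smul_eq_mul] at this
  by_contra h
  exact hc (mul_right_cancel₀ h (this.trans (one_mul _).symm))

lemma B_e_e {i j : ι} (hij : P.root j ≠ -P.root i) : B (L.e i) (L.e j) = 0 := by
  obtain ⟨y, hy⟩ := exists_pair_ne' (P := P) (x := P.root i + P.root j)
    (fun h => hij (eq_neg_of_add_eq_zero_right h))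
  obtain ⟨c, hc⟩ := exists_unit_zpow_ne (k := k) hy
  obtain ⟨u, hu⟩ := L.exists_adT y c
  have := H.torus_inv _ _ u hu (L.e i) (L.e j)
  rw [hu.2, hu.2, map_smul, map_smul, LinearMap.smul_apply, smul_eq_mul, smul_eq_mul,
    ← mul_assoc, ← Units.val_mul, ← zpow_add] at this
  by_contra h
  apply hc
  rw [map_add, LinearMap.add_apply, add_comm]
  exact mul_right_cancel₀ h (this.trans (one_mul _).symm)

omit [Infinite k] in
lemma eq_zero_of_B {x : g} (h1 : ∀ a, B x (L.t a) = 0) (h2 : ∀ i, B x (L.e i) = 0) : x = 0 := by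
  refine H.nondeg.1 x fun y => ?_
  obtain ⟨a, c, rfl⟩ := L.decomp y
  rw [map_add, h1, zero_add, Finsupp.linearCombination_apply, Finsupp.sum, map_sum]
  simp [h2]

lemma exists_c (i : ι) : ∃ c : k, c ≠ 0 ∧
    ∀ a, B (L.t (1 ⊗ₜ P.coroot i)) (L.t a) = c * dch k (P.root' i) a := by
  set j := P.reflectionPerm i i with hj
  have hij : P.root j = -P.root i := by
    rw [hj, P.root_reflectionPerm, P.reflection_apply_self]
  refine ⟨B (L.e i) (L.e j), fun h0 => ?_, fun a => ?_⟩
  · refine L.e_ne i (eq_zero_of_B H (fun a => ?_) fun l => ?_)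
    · rw [H.symm.eq, B_t_e H]
    · by_cases hl : P.root l = -P.root i
      · have : l = j := P.root.injective (hl.trans hij.symm)
        rw [this, h0]
      · exact B_e_e H hl
  · rw [← L.lie_e_neg i j hij, H.ad_inv, ← lie_skew, L.lie_t_e', map_neg, map_smul, smul_eq_mul]
    have : dch k (P.root' j) a = - dch k (P.root' i) a := by
      have : P.root' j = - P.root' i := by simp [RootPairing.root', hij]
      rw [this]
      simp [dch]
    rw [this]; ring

lemma t_nondeg {a : k ⊗[ℤ] Y} (h : ∀ b, B (L.t a) (L.t b) = 0) : a = 0 :=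
  L.t_inj (eq_zero_of_B H h fun i => B_t_e H a i)

variable {p : ℕ} [hp : Fact p.Prime] [CharP k p]

omit H [LieRing g] [LieAlgebra k g] [Infinite k] in
lemma dvd_of_tmul_eq_zero (P : RootDatum ι X Y) {y : Y} (h : (1 : k) ⊗ₜ[ℤ] y = 0) :
    ∃ y' : Y, y = (p : ℤ) • y' := by
  refine dvd_of_pair P (by exact_mod_cast hp.out.ne_zero) fun x => ?_
  have := dch_tmul (k := k) (P.toLinearMap x) 1 y
  rw [h, map_zero, one_mul] at this
  exact (CharP.intCast_eq_zero_iff k p _).mp this.symm

include hp in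
lemma coroot_ne (i : ι) : (1 : k) ⊗ₜ[ℤ] P.coroot i ≠ 0 := by
  intro h0
  obtain ⟨y', hy'⟩ := dvd_of_tmul_eq_zero (p := p) P h0
  obtain ⟨c, hc, hB⟩ := exists_c H i
  have h1 := hB (1 ⊗ₜ y')
  rw [h0, map_zero, map_zero, LinearMap.zero_apply, dch_tmul, one_mul] at h1
  have h2 : ((P.root' i y' : ℤ) : k) = 0 := (mul_eq_zero.mp h1.symm).resolve_left hc
  obtain ⟨m, hm⟩ := (CharP.intCast_eq_zero_iff k p _).mp h2
  have h3 : P.root' i (P.coroot i) = 2 := by simp
  rw [hy', map_zsmul, hm, smul_eq_mul] at h3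
  have h4 : (p : ℤ) * p ∣ 2 := ⟨m, by rw [← h3]; ring⟩
  have h5 := Int.le_of_dvd (by norm_num) h4
  have h6 : (2 : ℤ) ≤ p := by exact_mod_cast hp.out.two_le
  nlinarith

include hp in
lemma dch_ne (i : ι) : ∃ a, dch k (P.root' i) a ≠ 0 := by
  by_contra hcon
  push Not at hcon
  obtain ⟨c, -, hB⟩ := exists_c H i
  exact coroot_ne (p := p) H i (t_nondeg H fun b => by rw [hB, hcon, mul_zero])

include hp in
/-- The span of the coroots of a Levi subsystem contains no nonzero vector orthogonal to it. -/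
lemma levi_span_nondeg (lam : Y) {z : k ⊗[ℤ] Y}
    (hz : z ∈ Submodule.span k ((fun i => (1 : k) ⊗ₜ[ℤ] P.coroot i) '' {i | P.root' i lam = 0}))
    (horth : ∀ i, P.root' i lam = 0 → B (L.t (1 ⊗ₜ P.coroot i)) (L.t z) = 0) : z = 0 := by
  have hdz : ∀ i, P.root' i lam = 0 → dch k (P.root' i) z = 0 := by
    intro i hi
    obtain ⟨c, hc, hB⟩ := exists_c H i
    have := horth i hi
    rw [hB] at this
    exact (mul_eq_zero.mp this).resolve_left hc
  have hzc : L.t z ∈ centre (L.levi lam) := by
    refine ⟨Submodule.mem_sup_left (LinearMap.mem_range_self _ _), fun y hy => ?_⟩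
    obtain ⟨y1, ⟨a, rfl⟩, y2, hy2, rfl⟩ := Submodule.mem_sup.mp hy
    rw [lie_add, L.lie_t_t, zero_add]
    clear hy
    induction hy2 using Submodule.span_induction with
    | mem x hx =>
      obtain ⟨i, hi, rfl⟩ := hx
      rw [L.lie_t_e', hdz i hi, zero_smul]
    | zero => simp
    | add x y _ _ hx hy => rw [lie_add, hx, hy, add_zero]
    | smul a x _ hx => rw [lie_smul, hx, smul_zero]
  have key : ∀ x ∈ centre (L.levi lam), B (L.t z) x = 0 := by
    intro x hx
    obtain ⟨a, c, rfl⟩ := L.decomp x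
    have hc : c = 0 := by
      ext i
      obtain ⟨b, hb⟩ := dch_ne (p := p) H i
      have h1 := hx.2 (L.t b) (Submodule.mem_sup_left (LinearMap.mem_range_self _ _))
      rw [← lie_skew, neg_eq_zero, lie_add, L.lie_t_t, zero_add, Finsupp.linearCombination_apply,
        Finsupp.sum, lie_sum] at h1
      have h2 : Finsupp.linearCombination k L.e
          (Finsupp.onFinset c.support (fun j => c j * dch k (P.root' j) b)
            (fun j hj => Finsupp.mem_support_iff.mpr (left_ne_zero_of_mul hj))) = 0 := by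
        rw [Finsupp.linearCombination_onFinset, ← h1]
        refine Finset.sum_congr rfl fun j _ => ?_
        rw [lie_smul, L.lie_t_e', smul_smul]
      have h3 := (L.indep (a := 0) (by rw [map_zero, zero_add]; exact h2)).2
      have h4 := DFunLike.congr_fun h3 i
      simp only [Finsupp.onFinset_apply, Finsupp.coe_zero, Pi.zero_apply] at h4
      exact (mul_eq_zero.mp h4).resolve_right hb
    subst hc
    rw [map_zero, add_zero] at hx ⊢
    have hda : ∀ i, P.root' i lam = 0 → dch k (P.root' i) a = 0 := by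
      intro i hi
      have h1 := hx.2 (L.e i) (Submodule.mem_sup_right (Submodule.subset_span ⟨i, hi, rfl⟩))
      rw [L.lie_t_e'] at h1
      exact (smul_eq_zero.mp h1).resolve_right (L.e_ne i)
    clear hzc hdz horth
    induction hz using Submodule.span_induction with
    | mem x hx =>
      obtain ⟨i, hi, rfl⟩ := hx
      obtain ⟨c, -, hB⟩ := exists_c H i
      rw [hB, hda i hi, mul_zero]
    | zero => simp
    | add x y _ _ hx hy => rw [map_add, map_add, LinearMap.add_apply, hx, hy, add_zero]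
    | smul a x _ hx => rw [map_smul, map_smul, LinearMap.smul_apply, hx, smul_zero]
  have := (H.levi_nondeg lam).1 ⟨L.t z, hzc⟩ fun y => key y.1 y.2
  exact L.t_inj (congrArg Subtype.val this)

lemma weyl_inv {w : Y ≃ₗ[ℤ] Y} (hw : w ∈ WY P) (a b : k ⊗[ℤ] Y) :
    B (L.t (w.toLinearMap.baseChange k a)) (L.t (w.toLinearMap.baseChange k b)) =
      B (L.t a) (L.t b) := by
  have hrefl : ∀ i a b, B (L.t ((P.coreflection i).toLinearMap.baseChange k a))
      (L.t ((P.coreflection i).toLinearMap.baseChange k b)) = B (L.t a) (L.t b) := by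
    intro i a b
    have hs : ∀ a : k ⊗[ℤ] Y, (P.coreflection i).toLinearMap.baseChange k a =
        a - dch k (P.root' i) a • ((1 : k) ⊗ₜ[ℤ] P.coroot i) := by
      intro a
      induction a using TensorProduct.induction_on with
      | zero => simp
      | tmul c y =>
        rw [LinearMap.baseChange_tmul, dch_tmul, LinearEquiv.coe_coe, P.coreflection_apply,
          TensorProduct.tmul_sub, TensorProduct.smul_tmul', TensorProduct.tmul_smul,
          TensorProduct.smul_tmul', smul_eq_mul, mul_one, zsmul_eq_mul, mul_comm]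
      | add a b ha hb => rw [map_add, ha, hb, map_add, add_smul]; abel
    obtain ⟨c, -, hB⟩ := exists_c H i
    have h2 : dch k (P.root' i) (1 ⊗ₜ P.coroot i) = 2 := by simp [dch_tmul]
    rw [hs, hs]
    simp only [map_sub, map_smul, LinearMap.sub_apply, LinearMap.smul_apply, smul_eq_mul]
    rw [H.symm.eq (L.t a) (L.t (1 ⊗ₜ P.coroot i))]
    simp only [hB, h2]
    ring
  induction hw using Subgroup.closure_induction'' generalizing a b with
  | one => simp [← Module.End.one_eq_id]
  | mem x hx =>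
    obtain ⟨l, rfl⟩ := hx
    exact hrefl l a b
  | inv_mem x hx =>
    obtain ⟨l, rfl⟩ := hx
    rw [P.coreflection_inv]
    exact hrefl l a b
  | mul x y _ _ hx hy =>
    rw [LinearEquiv.coe_toLinearMap_mul, LinearMap.baseChange_mul, Module.End.mul_apply,
      Module.End.mul_apply, hx, hy]

variable [Finite ι] [P.IsReduced]

omit hp [CharP k p] in
lemma isEmpty_of_two [CharP k 2] : IsEmpty ι := by
  refine ⟨fun a => ?_⟩
  obtain ⟨lam, hlam, hsat⟩ := exists_levi P (fun _ : Unit => a)
  refine coroot_ne (p := 2) H a (levi_span_nondeg (p := 2) H lam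
    (Submodule.subset_span ⟨a, hlam (), rfl⟩) fun i hi => ?_)
  obtain ⟨n, hn, hmem⟩ := hsat i hi
  have hr : range (P.coroot ∘ fun _ : Unit => a) = {P.coroot a} := by
    ext y; simp [eq_comm]
  rw [hr, Submodule.mem_span_singleton] at hmem
  obtain ⟨m, hm⟩ := hmem
  obtain ⟨c, -, hB⟩ := exists_c H a
  have h2 : B (L.t (1 ⊗ₜ P.coroot a)) (L.t (1 ⊗ₜ P.coroot a)) = 0 := by
    rw [hB, dch_tmul]
    have : ((2 : ℕ) : k) = 0 := CharP.cast_eq_zero k 2
    simp only [Nat.cast_ofNat] at this
    simp [this]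
  rcases eq_or_neg_of_smul P hn hm.symm with h | h
  · rw [h, h2]
  · rw [h, TensorProduct.tmul_neg, map_neg, map_neg, LinearMap.neg_apply, h2, neg_zero]

theorem not_dvd_card_WY [Module.Finite ℤ Y] : ¬ p ∣ Nat.card (WY P) := by
  classical
  intro hdvd
  have := finite_WY P
  have := tfY P
  obtain ⟨⟨w, hw⟩, hord⟩ := exists_prime_orderOf_dvd_card' (G := WY P) p hdvd
  have hwp : w ^ p = 1 := by
    have := pow_orderOf_eq_one (⟨w, hw⟩ : WY P)
    rw [hord] at this
    exact congrArg Subtype.val this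
  have hw1 : w ≠ 1 := by
    intro h
    have : (⟨w, hw⟩ : WY P) = 1 := Subtype.ext h
    rw [this, orderOf_one] at hord
    exact hp.out.one_lt.ne hord
  obtain ⟨b, hb⟩ := exists_elliptic P hw hwp hw1
  rcases hp.out.eq_two_or_odd' with h2 | hodd
  · subst h2
    exact (isEmpty_of_two H).false b
  have hp2 : 2 < p := lt_of_le_of_ne hp.out.two_le (by rintro rfl; exact absurd hodd (by decide))
  obtain ⟨m, hm⟩ : ∃ m, p = m + 2 := ⟨p - 2, by omega⟩
  have hmodd : Odd m := by
    obtain ⟨r, hr⟩ := hodd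
    exact ⟨r - 1, by omega⟩
  choose φ hφ using fun i : ℕ => exists_carries P (pow_mem hw i) b
  obtain ⟨lam, hlam, hsat⟩ := exists_levi P (fun i : Fin (m + 1) => φ i)
  set M0 := Submodule.span ℤ (range (P.coroot ∘ fun i : Fin (m + 1) => φ i)) with hM0
  let W : Module.End ℤ Y := w.toLinearMap
  have hWp : ∀ i y, (W ^ i) y = (w ^ i) y := by
    intro i
    induction i with
    | zero => intro y; rfl
    | succ i ih => intro y; rw [pow_succ, pow_succ, Module.End.mul_apply, ih]; rfl
  have hgen : ∀ i : Fin (m + 1), (w ^ (i : ℕ)) (P.coroot b) ∈ M0 := fun i =>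
    Submodule.subset_span ⟨i, (hφ i).1.symm⟩
  have hlast : (w ^ (m + 1)) (P.coroot b) =
      -∑ i : Fin (m + 1), (w ^ (i : ℕ)) (P.coroot b) := by
    rw [hm, Finset.sum_range_succ, Finset.sum_range] at hb
    exact eq_neg_of_add_eq_zero_right hb
  have hstep : ∀ (i : Fin (m + 1)) (N : Submodule ℤ Y),
      (∀ j : Fin (m + 1), (w ^ (j : ℕ)) (P.coroot b) ∈ N) →
      w ((w ^ (i : ℕ)) (P.coroot b)) ∈ N := by
    intro i N hN
    rw [← LinearEquiv.mul_apply, ← pow_succ']
    by_cases hi : (i : ℕ) + 1 < m + 1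
    · exact hN ⟨_, hi⟩
    · have : (i : ℕ) + 1 = m + 1 := by have := i.2; omega
      rw [this, hlast]
      exact N.neg_mem (Submodule.sum_mem _ fun j _ => hN j)
  have hM0w : ∀ y ∈ M0, w y ∈ M0 := by
    intro y hy
    induction hy using Submodule.span_induction with
    | mem x hx =>
      obtain ⟨i, rfl⟩ := hx
      have := hstep i M0 hgen
      rwa [(hφ i).1] at this
    | zero => simp
    | add x y _ _ hx hy => rw [map_add]; exact M0.add_mem hx hy
    | smul a x _ hx => rw [map_smul]; exact M0.smul_mem _ hx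
  have hM0s : ∀ y ∈ M0, (∑ i ∈ Finset.range p, W ^ i) y = 0 := by
    intro y hy
    induction hy using Submodule.span_induction with
    | mem x hx =>
      obtain ⟨j, rfl⟩ := hx
      have e : (P.coroot ∘ fun i : Fin (m + 1) => φ i) j = (W ^ (j : ℕ)) (P.coroot b) := by
        rw [hWp]; exact (hφ j).1.symm
      have hc : Commute (∑ i ∈ Finset.range p, W ^ i) (W ^ (j : ℕ)) :=
        Commute.sum_left _ _ _ fun i _ => Commute.pow_pow_self W i j
      rw [e, ← Module.End.mul_apply, hc.eq, Module.End.mul_apply, LinearMap.sum_apply]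
      simp only [hWp] at hb ⊢
      rw [hb, map_zero]
    | zero => simp
    | add x y _ _ hx hy => rw [map_add, hx, hy, add_zero]
    | smul a x _ hx => rw [map_smul, hx, smul_zero]
  set Ls := sat M0 with hLs
  have hLw : ∀ y ∈ Ls, W y ∈ Ls := by
    rintro y ⟨n, hn, hy⟩
    exact ⟨n, hn, by rw [← map_smul]; exact hM0w _ hy⟩
  have hLsum : ∀ y ∈ Ls, (∑ i ∈ Finset.range p, W ^ i) y = 0 := by
    rintro y ⟨n, hn, hy⟩
    have := hM0s _ hy
    rw [map_smul] at this
    exact (smul_eq_zero.mp this).resolve_left hn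
  have hLpoly : ∀ (q : Polynomial ℤ), ∀ y ∈ Ls, Polynomial.aeval W q y ∈ Ls := by
    intro q y hy
    exact Polynomial.aeval_apply_smul_mem_of_le_comap hy q W (fun x hx => hLw x hx)
  obtain ⟨h, hh⟩ := geom_identity hp.out
  have hid : ∀ y ∈ Ls, ((W - 1) ^ (m + 1)) y =
      -((p : ℤ) • (y + (W - 1) (Polynomial.aeval W h y))) := by
    intro y hy
    have h1 := congrArg (fun q => Polynomial.aeval W q y) hh
    have hpm : p - 1 = m + 1 := by omega
    simp only [map_sum, map_pow, Polynomial.aeval_X, map_add, map_sub, map_one, map_mul,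
      map_natCast, hpm] at h1
    rw [hLsum y hy, LinearMap.add_apply, Module.End.mul_apply, Module.End.natCast_apply,
      LinearMap.add_apply, Module.End.mul_apply, Module.End.one_apply, ← natCast_zsmul] at h1
    exact eq_neg_of_add_eq_zero_left h1.symm
  have hNL : ∀ y ∈ Ls, (W - 1) y ∈ Ls := fun y hy => Ls.sub_mem (hLw y hy) hy
  have hNpL : ∀ j : ℕ, ∀ x ∈ Ls, ((W - 1) ^ j : Module.End ℤ Y) x ∈ Ls := by
    intro j
    induction j with
    | zero => simp
    | succ j ih => intro x hx; rw [pow_succ', Module.End.mul_apply]; exact hNL _ (ih x hx)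
  have hp0 : (p : ℤ) ≠ 0 := by exact_mod_cast hp.out.ne_zero
  have hbL : P.coroot b ∈ Ls := le_sat M0 (by simpa using hgen 0)
  -- a vector generating a full Jordan block
  have hv : ∃ v ∈ Ls, (1 : k) ⊗ₜ[ℤ] ((W - 1) ^ m) v ≠ 0 := by
    by_contra hcon
    push Not at hcon
    have hdiv : ∀ v ∈ Ls, ∃ v' ∈ Ls, ((W - 1) ^ m) v = (p : ℤ) • v' := by
      intro v hv
      obtain ⟨v', hv'⟩ := dvd_of_tmul_eq_zero (p := p) P (hcon v hv)
      exact ⟨v', mem_sat_of_smul hp0 (hv' ▸ hNpL m v hv), hv'⟩
    have hsurj : ∀ v ∈ Ls, ∃ v' ∈ Ls, v = (W - 1) v' := by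
      intro v hv
      obtain ⟨v', hv', e⟩ := hdiv v hv
      have h1 := hid v hv
      rw [pow_succ', Module.End.mul_apply, e, map_smul, ← smul_neg] at h1
      have h2 := smul_right_injective Y hp0 h1
      refine ⟨-(v' + Polynomial.aeval W h v), Ls.neg_mem (Ls.add_mem hv' (hLpoly h v hv)), ?_⟩
      rw [map_neg, map_add, h2]; abel
    have hsurj' : ∀ j : ℕ, ∀ v ∈ Ls, ∃ v' ∈ Ls, v = ((W - 1) ^ j : Module.End ℤ Y) v' := by
      intro j
      induction j with
      | zero => exact fun v hv => ⟨v, hv, rfl⟩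
      | succ j ih =>
        intro v hv
        obtain ⟨v', hv', e⟩ := ih v hv
        obtain ⟨v'', hv'', e'⟩ := hsurj v' hv'
        exact ⟨v'', hv'', by rw [pow_succ, Module.End.mul_apply, ← e', ← e]⟩
    obtain ⟨v, hv, e⟩ := hsurj' m _ hbL
    obtain ⟨v', -, e'⟩ := hdiv v hv
    have h3 : P.root' b (P.coroot b) = 2 := by simp
    rw [e, e', map_zsmul, smul_eq_mul] at h3
    have h5 := Int.le_of_dvd (by norm_num) (Dvd.intro _ h3)
    omega
  obtain ⟨v, hvL, hv0⟩ := hv
  let j1 : Y →ₗ[ℤ] k ⊗[ℤ] Y := TensorProduct.mk ℤ k Y 1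
  let Wk : Module.End k (k ⊗[ℤ] Y) := W.baseChange k
  have hWk : ∀ y, Wk (1 ⊗ₜ y) = 1 ⊗ₜ W y := fun y => rfl
  have hNk : ∀ (j : ℕ) (y : Y), ((Wk - 1) ^ j : Module.End k (k ⊗[ℤ] Y)) (1 ⊗ₜ y) =
      1 ⊗ₜ ((W - 1) ^ j : Module.End ℤ Y) y := by
    intro j
    induction j with
    | zero => simp
    | succ j ih =>
      intro y
      rw [pow_succ', pow_succ', Module.End.mul_apply, Module.End.mul_apply, ih,
        LinearMap.sub_apply, LinearMap.sub_apply, hWk, TensorProduct.tmul_sub]
      rfl
  let Lk : Submodule k (k ⊗[ℤ] Y) := Submodule.span k (j1 '' Ls)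
  have hLk : ∀ y ∈ Ls, (1 : k) ⊗ₜ[ℤ] y ∈ Lk := fun y hy => Submodule.subset_span ⟨y, hy, rfl⟩
  let S0 : Submodule k (k ⊗[ℤ] Y) := Submodule.span k (j1 '' M0)
  have hspanW : ∀ N : Submodule ℤ Y, (∀ y ∈ N, W y ∈ N) →
      ∀ x ∈ Submodule.span k (j1 '' N), Wk x ∈ Submodule.span k (j1 '' N) := by
    intro N hN x hx
    induction hx using Submodule.span_induction with
    | mem x hx =>
      obtain ⟨y, hy, rfl⟩ := hx
      exact Submodule.subset_span ⟨W y, hN y hy, rfl⟩
    | zero => simp
    | add x y _ _ hx hy => rw [map_add]; exact Submodule.add_mem _ hx hy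
    | smul a x _ hx => rw [map_smul]; exact Submodule.smul_mem _ _ hx
  have hdim : Module.finrank k Lk ≤ m + 1 := by
    let bas := Module.finBasis ℤ Ls
    have hle : Lk ≤ Submodule.span k (range fun i => j1 (bas i : Y)) := by
      refine Submodule.span_le.mpr ?_
      rintro _ ⟨y, hy, rfl⟩
      have e : y = ∑ i, bas.repr ⟨y, hy⟩ i • (bas i : Y) := by
        have := congrArg Subtype.val (bas.sum_repr ⟨y, hy⟩)
        rw [Submodule.coe_sum] at this
        exact this.symm
      rw [e, map_sum]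
      refine Submodule.sum_mem _ fun i _ => ?_
      rw [map_zsmul]
      exact zsmul_mem (Submodule.subset_span (mem_range_self i)) _
    have h1 := Submodule.finrank_mono hle
    have h2 := finrank_range_le_card (R := k) (fun i => j1 (bas i : Y))
    have h3 := finrank_sat_le M0
    have h4 := finrank_range_le_card (R := ℤ) (P.coroot ∘ fun i : Fin (m + 1) => φ i)
    simp only [Fintype.card_fin, Set.finrank] at h2 h4
    exact h1.trans (h2.trans (h3.trans h4))
  have h2k : (2 : k) ≠ 0 := by
    intro h0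
    have : ((2 : ℕ) : k) = 0 := by exact_mod_cast h0
    rw [CharP.cast_eq_zero_iff k p] at this
    exact absurd (Nat.le_of_dvd two_pos this) (by omega)
  obtain ⟨z, hzS, hz0, hz⟩ := jordan (B.compl₁₂ L.t L.t) (fun x y => H.symm.eq _ _) Wk
    (fun x y => weyl_inv H hw x y) h2k hmodd Lk (hspanW Ls hLw) (by
      intro x hx
      induction hx using Submodule.span_induction with
      | mem x hx =>
        obtain ⟨y, hy, rfl⟩ := hx
        change ((Wk - 1) ^ (m + 1)) (1 ⊗ₜ y) = 0
        rw [hNk, hid y hy, TensorProduct.tmul_neg, ← TensorProduct.smul_tmul]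
        simp
      | zero => simp
      | add x y _ _ hx hy => rw [map_add, hx, hy, add_zero]
      | smul a x _ hx => rw [map_smul, hx, smul_zero])
    (hLk v hvL) (by rwa [hNk]) hdim S0 (Submodule.span_mono (image_mono (le_sat M0)))
    (hspanW M0 hM0w) (z0 := 1 ⊗ₜ P.coroot b)
    (Submodule.subset_span ⟨_, by simpa using hgen 0, rfl⟩) (coroot_ne (p := p) H b)
  refine hz0 (levi_span_nondeg (p := p) H lam ?_ fun i hi => hz _ (hLk _ (hsat i hi)))
  refine (Submodule.span_le.mpr ?_ : S0 ≤ _) hzS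
  rintro _ ⟨y, hy, rfl⟩
  induction hy using Submodule.span_induction with
  | mem x hx =>
    obtain ⟨i, rfl⟩ := hx
    exact Submodule.subset_span ⟨φ i, hlam i, rfl⟩
  | zero => simp
  | add x y _ _ hx hy => rw [map_add]; exact Submodule.add_mem _ hx hy
  | smul a x _ hx => rw [map_zsmul]; exact zsmul_mem hx _

end LieG

/-- If `p ∤ |W|` then `p` is very good. -/
theorem veryGood_of_not_dvd [Finite ι] [P.IsReduced] {p : ℕ} (hp : p.Prime)
    (h : ¬ p ∣ Nat.card (WY P)) : VeryGood P p := by
  classical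
  intro s f hf
  have := finite_WY P
  let Q := Submodule.span ℤ (range P.coroot)
  let R := Submodule.span ℤ (rootWt P '' s)
  change _ ∈ R at hf
  change _ ∈ R
  let W' : Subgroup (Y ≃ₗ[ℤ] Y) := Subgroup.closure (P.coreflection '' s)
  have hle : W' ≤ WY P := Subgroup.closure_mono (image_subset_range _ _)
  have : Finite W' := Finite.of_injective _ (Subgroup.inclusion_injective hle)
  have := Fintype.ofFinite W'
  have hQw : ∀ w ∈ WY P, ∀ y ∈ Q, w.toLinearMap y ∈ Q := by
    intro w hw y hy
    induction hy using Submodule.span_induction with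
    | mem x hx =>
      obtain ⟨i, rfl⟩ := hx
      obtain ⟨j, hj⟩ := exists_carries P hw i
      exact Submodule.subset_span ⟨j, hj.1.symm⟩
    | zero => simp
    | add x y _ _ hx hy => rw [map_add]; exact Q.add_mem hx hy
    | smul a x _ hx => rw [map_smul]; exact Q.smul_mem _ hx
  let res : ∀ w ∈ W', Q →ₗ[ℤ] Q := fun w hw => w.toLinearMap.restrict (hQw w (hle hw))
  have h1 : ∀ w (hw : w ∈ W'), ∀ f : Q →ₗ[ℤ] ℤ, f ∘ₗ res w hw - f ∈ R := by
    have hgen : ∀ i (hi : i ∈ s), ∀ f : Q →ₗ[ℤ] ℤ,
        f ∘ₗ res _ (Subgroup.subset_closure ⟨i, hi, rfl⟩) - f ∈ R := by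
      intro i hi f
      have : f ∘ₗ res _ (Subgroup.subset_closure ⟨i, hi, rfl⟩) - f =
          (- f ⟨P.coroot i, Submodule.subset_span ⟨i, rfl⟩⟩) • rootWt P i := by
        ext y
        have e : res _ (Subgroup.subset_closure ⟨i, hi, rfl⟩) y =
            y - P.root' i y • (⟨P.coroot i, Submodule.subset_span ⟨i, rfl⟩⟩ : Q) :=
          Subtype.ext (P.coreflection_apply i y)
        simp only [LinearMap.sub_apply, LinearMap.comp_apply, e, map_sub, map_zsmul]
        simp [rootWt, mul_comm]
      rw [this]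
      exact R.smul_mem _ (Submodule.subset_span ⟨i, hi, rfl⟩)
    intro w hw
    induction hw using Subgroup.closure_induction'' with
    | one =>
      intro f
      have : f ∘ₗ res 1 (one_mem _) - f = 0 := sub_eq_zero.mpr rfl
      rw [this]; exact R.zero_mem
    | mem x hx =>
      obtain ⟨i, hi, rfl⟩ := hx
      exact hgen i hi
    | inv_mem x hx =>
      obtain ⟨i, hi, rfl⟩ := hx
      intro f
      have := hgen i hi f
      simpa only [P.coreflection_inv] using this
    | mul x y hx' hy' hx hy =>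
      intro f
      have : f ∘ₗ res (x * y) (mul_mem hx' hy') - f =
          ((f ∘ₗ res x hx') ∘ₗ res y hy' - f ∘ₗ res x hx') + (f ∘ₗ res x hx' - f) := by
        ext z; simp [res]; rfl
      rw [this]
      exact R.add_mem (hy _) (hx _)
  have h2 : ∀ r ∈ R, ∑ w : W', r ∘ₗ res w.1 w.2 = 0 := by
    intro r hr
    induction hr using Submodule.span_induction with
    | mem x hx =>
      obtain ⟨i, hi, rfl⟩ := hx
      let σ : W' := ⟨P.coreflection i, Subgroup.subset_closure ⟨i, hi, rfl⟩⟩
      have e := Equiv.sum_comp (Equiv.mulLeft σ) (fun w : W' => rootWt P i ∘ₗ res w.1 w.2)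
      have e2 : ∀ w : W', rootWt P i ∘ₗ res (σ * w).1 (σ * w).2 = -(rootWt P i ∘ₗ res w.1 w.2) := by
        intro w
        ext y
        change P.root' i (P.coreflection i (w.1 y)) = - P.root' i (w.1 y)
        rw [P.coreflection_apply, map_sub, map_zsmul]
        simp only [RootPairing.root'_coroot_eq_pairing, RootPairing.pairing_same, smul_eq_mul]
        ring
      simp only [Equiv.coe_mulLeft, e2, Finset.sum_neg_distrib] at e
      ext y
      have := DFunLike.congr_fun e y
      simp only [LinearMap.neg_apply] at this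
      simp only [LinearMap.zero_apply]
      omega
    | zero => simp
    | add x y _ _ hx hy => simp only [LinearMap.add_comp, Finset.sum_add_distrib, hx, hy, add_zero]
    | smul a x _ hx => simp only [LinearMap.smul_comp, ← Finset.smul_sum, hx, smul_zero]
  have h3 : ∑ w : W', f ∘ₗ res w.1 w.2 = 0 := by
    have := h2 _ hf
    simp only [LinearMap.smul_comp, ← Finset.smul_sum] at this
    ext y
    have h4 := DFunLike.congr_fun this y
    simp only [LinearMap.smul_apply, smul_eq_mul, LinearMap.zero_apply, mul_eq_zero,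
      Nat.cast_eq_zero, hp.ne_zero, false_or] at h4
    simpa using h4
  have h4 : (Fintype.card W' : ℤ) • f ∈ R := by
    have := R.sum_mem (t := Finset.univ) fun (w : W') _ => h1 w.1 w.2 f
    rw [Finset.sum_sub_distrib, h3, zero_sub, Finset.sum_const, Finset.card_univ] at this
    rw [natCast_zsmul]
    exact neg_mem_iff.mp this
  have hcop : IsCoprime (p : ℤ) (Fintype.card W' : ℤ) := by
    rw [Nat.isCoprime_iff_coprime, hp.coprime_iff_not_dvd]
    intro hd
    apply h
    rw [← Nat.card_eq_fintype_card] at hd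
    exact hd.trans (Subgroup.card_dvd_of_le hle)
  obtain ⟨a, b, hab⟩ := hcop
  have : f = a • (p : ℤ) • f + b • (Fintype.card W' : ℤ) • f := by
    rw [smul_smul, smul_smul, ← add_smul, hab, one_smul]
  rw [this]
  exact R.add_mem (R.smul_mem _ hf) (R.smul_mem _ h4)

end Vale.Agent.Q008
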