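import Mathlib

/-! A representation of a finite `p`-group of dimension prime to `p` has a character whose
isotypic part has dimension prime to `p`. -/

namespace Vale.Agent.Q008

open Module

universe u

variable {E : Type*} [Field E] {G : Type*} [Group G]

/-- isotypic subspace of a character -/
def eig {V : Type*} [AddCommGroup V] [Module E V] (ρ : Representation E G V) (θ : G →* Eˣ) :
    Submodule E V where
  carrier := {v | ∀ g, ρ g v = (θ g : E) • v}
  zero_mem' := fun g => by simp
  add_mem' := fun ha hb g => by rw [map_add, ha g, hb g, smul_add]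
  smul_mem' := fun c _ ha g => by rw [map_smul, ha g, smul_comm]

lemma mem_eig {V : Type*} [AddCommGroup V] [Module E V] {ρ : Representation E G V} {θ : G →* Eˣ}
    {v : V} : v ∈ eig ρ θ ↔ ∀ g, ρ g v = (θ g : E) • v := Iff.rfl

lemma disjoint_ker_range {V : Type*} [AddCommGroup V] [Module E V] (T : Module.End E V) {M : ℕ}
    (hM : (M : E) ≠ 0) (hT : T ^ M = 1) {μ : E} (hμ : μ ^ M = 1) {v : V}
    (h1 : T v = μ • v) (h2 : v ∈ LinearMap.range (T - algebraMap E _ μ)) : v = 0 := by
  obtain ⟨u, rfl⟩ := h2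
  set v := (T - algebraMap E (Module.End E V) μ) u with hv
  have hM0 : M ≠ 0 := by rintro rfl; simp at hM
  have hμ0 : μ ≠ 0 := by rintro rfl; simp [hM0] at hμ
  have hc : Commute T (algebraMap E (Module.End E V) μ) := (Algebra.commutes μ T).symm
  have h3 := congrArg (fun f : Module.End E V => f u) (hc.geom_sum₂_mul M)
  simp only [Module.End.mul_apply] at h3
  rw [← hv, hT, ← map_pow, hμ, map_one, sub_self, LinearMap.zero_apply, LinearMap.sum_apply] at h3
  have hp : ∀ i : ℕ, (T ^ i) v = μ ^ i • v := by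
    intro i
    induction i with
    | zero => simp
    | succ i ih => rw [pow_succ, Module.End.mul_apply, h1, map_smul, ih, smul_smul, pow_succ']
  have h4 : ∀ i ∈ Finset.range M,
      (T ^ i * algebraMap E (Module.End E V) μ ^ (M - 1 - i)) v = μ ^ (M - 1) • v := by
    intro i hi
    rw [← map_pow, Module.End.mul_apply, Module.algebraMap_end_apply, map_smul, hp, smul_smul,
      ← pow_add]
    congr 2
    have := Finset.mem_range.mp hi
    omega
  rw [Finset.sum_congr rfl h4, Finset.sum_const, Finset.card_range, ← Nat.cast_smul_eq_nsmul E,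
    smul_smul] at h3
  exact (smul_eq_zero.mp h3).resolve_left (mul_ne_zero hM (pow_ne_zero _ hμ0))

theorem exists_char [IsAlgClosed E] [Finite G] {p : ℕ} [hp : Fact p.Prime] (hG : IsPGroup p G)
    (hpE : (p : E) ≠ 0) (n : ℕ) : ∀ (V : Type u) [AddCommGroup V] [Module E V]
    [Module.Finite E V] (ρ : Representation E G V), finrank E V = n → ¬ p ∣ n →
    ∃ θ : G →* Eˣ, ¬ p ∣ finrank E (eig ρ θ) := by
  induction n using Nat.strong_induction_on with
  | _ n ih =>
  intro V _ _ _ ρ hn hpn
  have hn0 : n ≠ 0 := by rintro rfl; exact hpn (dvd_zero p)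
  have : Nontrivial V := Module.nontrivial_of_finrank_pos (R := E) (by omega)
  have hinj : Function.Injective (algebraMap E (Module.End E V)) := (algebraMap E _).injective
  let N : Subgroup G :=
    { carrier := {g | ∃ c : E, ρ g = algebraMap E _ c}
      one_mem' := ⟨1, by simp⟩
      mul_mem' := by
        rintro a b ⟨c, hc⟩ ⟨d, hd⟩
        exact ⟨c * d, by rw [map_mul, map_mul, hc, hd]⟩
      inv_mem' := by
        rintro a ⟨c, hc⟩
        have h1 : ρ a⁻¹ * algebraMap E _ c = 1 := by rw [← hc, ← map_mul, inv_mul_cancel, map_one]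
        have hc0 : c ≠ 0 := by rintro rfl; simp at h1
        refine ⟨c⁻¹, ?_⟩
        calc ρ a⁻¹ = ρ a⁻¹ * algebraMap E _ c * algebraMap E _ c⁻¹ := by
              rw [mul_assoc, ← map_mul, mul_inv_cancel₀ hc0, map_one, mul_one]
          _ = _ := by rw [h1, one_mul] }
  have hNn : N.Normal := ⟨by
    rintro a ⟨c, hc⟩ g
    refine ⟨c, ?_⟩
    rw [map_mul, map_mul, hc, ← Algebra.commutes, mul_assoc, ← map_mul, mul_inv_cancel, map_one,
      mul_one]⟩
  by_cases hN : N = ⊤
  · have hall : ∀ g, ∃ c : E, ρ g = algebraMap E _ c := fun g => (hN ▸ Subgroup.mem_top g : g ∈ N)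
    choose c hc using hall
    let θ0 : G →* E :=
      { toFun := c
        map_one' := hinj (by rw [← hc, map_one, map_one])
        map_mul' := fun a b => hinj (by rw [map_mul, ← hc, ← hc, ← hc, map_mul]) }
    refine ⟨θ0.toHomUnits, ?_⟩
    have : eig ρ θ0.toHomUnits = ⊤ := by
      rw [eq_top_iff]
      intro v _ g
      rw [hc]; rfl
    rwa [this, finrank_top, hn]
  have : Nontrivial (G ⧸ N) := by
    rw [QuotientGroup.nontrivial_iff]; exact hN
  obtain ⟨⟨zb, hzb⟩, hzb1⟩ := @exists_ne _ (hG.to_quotient N).center_nontrivial 1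
  obtain ⟨z, rfl⟩ := QuotientGroup.mk_surjective zb
  have hzN : z ∉ N := fun h => hzb1 (Subtype.ext ((QuotientGroup.eq_one_iff z).mpr h))
  have hcomm : ∀ g, Commute (ρ g) (ρ z) := by
    intro g
    have h1 : g * z * g⁻¹ * z⁻¹ ∈ N := by
      rw [← QuotientGroup.eq_one_iff]
      have := Subgroup.mem_center_iff.mp hzb (g : G ⧸ N)
      simp only [QuotientGroup.mk_mul, QuotientGroup.mk_inv]
      rw [this]; group
    obtain ⟨c, hc⟩ := h1
    have hdet : c ^ n = 1 := by
      have h2 : LinearMap.det (ρ (g * z * g⁻¹ * z⁻¹)) = 1 := by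
        let D : G →* E := (LinearMap.det : Module.End E V →* E).comp ρ
        change D (g * z * g⁻¹ * z⁻¹) = 1
        rw [map_mul, map_mul, map_mul, mul_right_comm (D g), ← map_mul, mul_inv_cancel, map_one,
          one_mul, ← map_mul, mul_inv_cancel, map_one]
      rw [hc, Module.algebraMap_end_eq_smul_id, LinearMap.det_smul, LinearMap.det_id, mul_one,
        hn] at h2
      exact h2
    obtain ⟨m, hm⟩ := hG (g * z * g⁻¹ * z⁻¹)
    have hpm : c ^ p ^ m = 1 := hinj (by rw [map_pow, ← hc, ← map_pow, hm, map_one, map_one])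
    have hc1 : c = 1 := by
      have hcop : (p ^ m).Coprime n := Nat.Coprime.pow_left _ (hp.out.coprime_iff_not_dvd.mpr hpn)
      have := pow_gcd_eq_one.mpr ⟨hpm, hdet⟩
      rwa [hcop, pow_one] at this
    rw [hc1, map_one] at hc
    have h3 : g * z = g * z * g⁻¹ * z⁻¹ * (z * g) := by group
    rw [Commute, SemiconjBy, ← map_mul, ← map_mul, h3, map_mul, hc, one_mul]
  obtain ⟨μ, hμ⟩ := Module.End.exists_eigenvalue (ρ z)
  obtain ⟨m, hm⟩ := hG z
  have hT : ρ z ^ p ^ m = 1 := by rw [← map_pow, hm, map_one]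
  have hμM : μ ^ p ^ m = 1 := by
    obtain ⟨v, hv⟩ := hμ.exists_hasEigenvector
    have h1 := hv.pow_apply (p ^ m)
    rw [hT, Module.End.one_apply] at h1
    have h2 : (μ ^ p ^ m - 1) • v = 0 := by rw [sub_smul, one_smul, ← h1, sub_self]
    exact sub_eq_zero.mp ((smul_eq_zero.mp h2).resolve_right hv.2)
  set S : Module.End E V := ρ z - algebraMap E _ μ with hS
  have hSc : ∀ g, Commute (ρ g) S := fun g =>
    (hcomm g).sub_right (Algebra.commutes μ (ρ g)).symm
  have hSa : ∀ v, S v = ρ z v - μ • v := fun v => rfl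
  have hsum := LinearMap.finrank_range_add_finrank_ker S
  have hker0 : finrank E (LinearMap.ker S) ≠ 0 := by
    obtain ⟨v, hv⟩ := hμ.exists_hasEigenvector
    intro h0
    rw [Submodule.finrank_eq_zero] at h0
    have : v ∈ LinearMap.ker S := by
      rw [LinearMap.mem_ker, hSa, hv.apply_eq_smul, sub_self]
    rw [h0] at this
    exact hv.2 this
  have hran0 : finrank E (LinearMap.range S) ≠ 0 := by
    intro h0
    rw [Submodule.finrank_eq_zero, LinearMap.range_eq_bot] at h0
    exact hzN ⟨μ, sub_eq_zero.mp h0⟩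
  have key : ∀ (W : Submodule E V) (hW : ∀ g, W ≤ W.comap (ρ g)), finrank E W < n →
      ¬ p ∣ finrank E W → (∀ θ : G →* Eˣ, (∃ v ∈ W, v ≠ 0 ∧ v ∈ eig ρ θ) → eig ρ θ ≤ W) →
      ∃ θ : G →* Eˣ, ¬ p ∣ finrank E (eig ρ θ) := by
    intro W hW hlt hnd hle
    obtain ⟨θ, hθ⟩ := ih _ hlt W (ρ.subrepresentation W hW) rfl hnd
    refine ⟨θ, ?_⟩
    have hmem : ∀ v : W, v ∈ eig (ρ.subrepresentation W hW) θ ↔ (v : V) ∈ eig ρ θ := by
      intro v
      simp only [mem_eig, Subtype.ext_iff]
      rfl
    have hne : eig (ρ.subrepresentation W hW) θ ≠ ⊥ := by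
      intro h0
      rw [h0, finrank_bot] at hθ
      exact hθ (dvd_zero p)
    obtain ⟨v, hv, hv0⟩ := (Submodule.ne_bot_iff _).mp hne
    have hle' := hle θ ⟨v, v.2, fun h => hv0 (Subtype.ext h), (hmem v).mp hv⟩
    have : eig ρ θ = (eig (ρ.subrepresentation W hW) θ).map W.subtype := by
      ext x
      constructor
      · intro hx
        exact ⟨⟨x, hle' hx⟩, (hmem _).mpr hx, rfl⟩
      · rintro ⟨y, hy, rfl⟩
        exact (hmem y).mp hy
    rwa [this, Submodule.finrank_map_subtype_eq]
  by_cases h1 : p ∣ finrank E (LinearMap.ker S)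
  · refine key (LinearMap.range S) ?_ (by omega) ?_ ?_
    · rintro g _ ⟨u, rfl⟩
      exact ⟨ρ g u, by rw [← Module.End.mul_apply, ← (hSc g).eq]; rfl⟩
    · intro h2
      exact hpn (by rw [← hn, ← hsum]; exact dvd_add h2 h1)
    · rintro θ ⟨v, hv, hv0, hvθ⟩ x hx
      have hne : (θ z : E) - μ ≠ 0 := by
        intro h0
        refine hv0 (disjoint_ker_range (ρ z) (M := p ^ m) (by simpa using fun h => absurd h hpE)
          hT hμM ?_ hv)
        rw [hvθ z, sub_eq_zero.mp h0]
      refine ⟨((θ z : E) - μ)⁻¹ • x, ?_⟩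
      rw [map_smul, hSa, hx z, ← sub_smul, smul_smul, inv_mul_cancel₀ hne, one_smul]
  · refine key (LinearMap.ker S) ?_ (by omega) h1 ?_
    · intro g u hu
      rw [Submodule.mem_comap, LinearMap.mem_ker, ← Module.End.mul_apply, ← (hSc g).eq,
        Module.End.mul_apply, LinearMap.mem_ker.mp hu, map_zero]
    · rintro θ ⟨v, hv, hv0, hvθ⟩ x hx
      rw [LinearMap.mem_ker, hSa, hvθ z, ← sub_smul] at hv
      rw [LinearMap.mem_ker, hSa, hx z, ← sub_smul, (smul_eq_zero.mp hv).resolve_right hv0,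
        zero_smul]

/-- The isotypic part has a complement stable under the group and under its commutant. -/
theorem exists_compl [Finite G] (hG : (Nat.card G : E) ≠ 0) {V : Type*} [AddCommGroup V]
    [Module E V] (ρ : Representation E G V) (θ : G →* Eˣ) :
    ∃ W : Submodule E V, IsCompl (eig ρ θ) W ∧ (∀ g, ∀ v ∈ W, ρ g v ∈ W) ∧
      ∀ T : Module.End E V, (∀ g, Commute T (ρ g)) → ∀ v ∈ W, T v ∈ W := by
  classical
  have := Fintype.ofFinite G
  let e : Module.End E V := (Nat.card G : E)⁻¹ • ∑ g, ((θ g⁻¹ : Eˣ) : E) • ρ g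
  have he : ∀ v, e v = (Nat.card G : E)⁻¹ • ∑ g, ((θ g⁻¹ : Eˣ) : E) • ρ g v := by
    intro v; simp [e, LinearMap.sum_apply]
  have h1 : ∀ h v, ρ h (e v) = (θ h : E) • e v := by
    intro h v
    rw [he, map_smul, map_sum, smul_comm (θ h : E)]
    congr 1
    rw [Finset.smul_sum]
    refine Fintype.sum_equiv (Equiv.mulLeft h) _ _ fun g => ?_
    simp only [Equiv.coe_mulLeft, map_smul, smul_smul, mul_inv_rev, map_mul, map_inv,
      Module.End.mul_apply]
    congr 1
    rw [← Units.val_mul, mul_comm (θ g)⁻¹, ← mul_assoc, mul_inv_cancel, one_mul]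
  have h2 : ∀ h v, e (ρ h v) = (θ h : E) • e v := by
    intro h v
    rw [he, he, smul_comm (θ h : E)]
    congr 1
    rw [Finset.smul_sum]
    refine Fintype.sum_equiv (Equiv.mulRight h) _ _ fun g => ?_
    simp only [Equiv.coe_mulRight, smul_smul, mul_inv_rev, map_mul, map_inv,
      Module.End.mul_apply]
    congr 1
    rw [← Units.val_mul, ← mul_assoc, mul_inv_cancel, one_mul]
  have h3 : ∀ v ∈ eig ρ θ, e v = v := by
    intro v hv
    rw [he]
    have : ∀ g, ((θ g⁻¹ : Eˣ) : E) • ρ g v = v := by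
      intro g
      rw [hv g, smul_smul, ← Units.val_mul, ← map_mul, inv_mul_cancel, map_one, Units.val_one,
        one_smul]
    simp only [this, Finset.sum_const, Finset.card_univ]
    rw [← Nat.cast_smul_eq_nsmul E, smul_smul, ← Nat.card_eq_fintype_card, inv_mul_cancel₀ hG,
      one_smul]
  refine ⟨LinearMap.ker e, ?_, fun g v hv => ?_, fun T hT v hv => ?_⟩
  · refine IsCompl.of_eq ?_ ?_
    · rw [eq_bot_iff]
      rintro v ⟨hv1, hv2⟩
      rw [Submodule.mem_bot, ← h3 v hv1]
      exact hv2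
    · rw [eq_top_iff]
      intro v _
      refine Submodule.mem_sup.mpr ⟨e v, fun g => h1 g v, v - e v, ?_, by abel⟩
      rw [LinearMap.mem_ker, map_sub, h3 _ fun g => h1 g v, sub_self]
  · rw [LinearMap.mem_ker] at hv ⊢
    rw [h2, hv, smul_zero]
  · rw [LinearMap.mem_ker] at hv ⊢
    have : e (T v) = T (e v) := by
      rw [he, he, map_smul, map_sum]
      congr 1
      refine Finset.sum_congr rfl fun g _ => ?_
      rw [map_smul, ← Module.End.mul_apply, ← (hT g).eq, Module.End.mul_apply]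
    rw [this, hv, map_zero]

end Vale.Agent.Q008
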