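import Mathlib

/-! The Weyl group of a finite reduced root datum acts freely on regular coweights/weights. -/

namespace Vale.Agent.Q008

open Set Function

variable {ι X Y : Type*} [AddCommGroup X] [AddCommGroup Y] (P : RootDatum ι X Y)

/-- The Weyl group acting on the cocharacter lattice. -/
def WY : Subgroup (Y ≃ₗ[ℤ] Y) := Subgroup.closure (range P.coreflection)

lemma corefl_mem (i : ι) : P.coreflection i ∈ WY P := Subgroup.subset_closure (mem_range_self i)

lemma root'_corefl (l i : ι) (y : Y) :
    P.root' (P.reflectionPerm l i) (P.coreflection l y) = P.root' i y := by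
  have h := P.flip.coroot'_reflection (i := l) (j := i) (P.coreflection l y)
  have h2 : P.flip.reflection l (P.coreflection l y) = y := P.coreflection_same l y
  rw [h2] at h
  exact h.symm

/-- `g` carries the coroot `i` to the coroot `j` and the root `i` to the root `j`. -/
def Carries (g : Y ≃ₗ[ℤ] Y) (i j : ι) : Prop :=
  g (P.coroot i) = P.coroot j ∧ ∀ y, P.root' j (g y) = P.root' i y

lemma carries_corefl (l i : ι) : Carries P (P.coreflection l) i (P.reflectionPerm l i) :=
  ⟨(P.coroot_reflectionPerm l i).symm, root'_corefl P l i⟩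

lemma Carries.mul {g h : Y ≃ₗ[ℤ] Y} {i j l : ι} (h1 : Carries P h i j) (h2 : Carries P g j l) :
    Carries P (g * h) i l :=
  ⟨by rw [LinearEquiv.mul_apply, h1.1, h2.1], fun y => by
    rw [LinearEquiv.mul_apply, h2.2, h1.2]⟩

lemma exists_carries {g : Y ≃ₗ[ℤ] Y} (hg : g ∈ WY P) (i : ι) : ∃ j, Carries P g i j := by
  induction hg using Subgroup.closure_induction'' generalizing i with
  | one => exact ⟨i, rfl, fun _ => rfl⟩
  | mem x hx =>
    obtain ⟨l, rfl⟩ := hx
    exact ⟨_, carries_corefl P l i⟩
  | inv_mem x hx =>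
    obtain ⟨l, rfl⟩ := hx
    rw [P.coreflection_inv]
    exact ⟨_, carries_corefl P l i⟩
  | mul x y _ _ hx hy =>
    obtain ⟨j, hj⟩ := hy i
    obtain ⟨l, hl⟩ := hx j
    exact ⟨l, hj.mul P hl⟩

lemma Carries.conj {g : Y ≃ₗ[ℤ] Y} {i j : ι} (h : Carries P g i j) :
    g * P.coreflection i = P.coreflection j * g := by
  ext y
  simp only [LinearEquiv.mul_apply, P.coreflection_apply, map_sub, map_zsmul, h.1]
  have := h.2 y
  simp only [RootPairing.root'] at this
  rw [this]

section Free

variable (F : Y →ₗ[ℤ] ℤ)

/-- generated cone condition -/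
def Gen (s : Finset ι) : Prop :=
  (∀ i ∈ s, 0 < F (P.coroot i)) ∧
  ∀ b, 0 < F (P.coroot b) → ∃ n : ℕ, 0 < n ∧
    n • P.coroot b ∈ AddSubmonoid.closure (P.coroot '' (s : Set ι))

lemma closure_pos {s : Set ι} (hs : ∀ i ∈ s, 0 < F (P.coroot i)) {u : Y}
    (hu : u ∈ AddSubmonoid.closure (P.coroot '' s)) : u = 0 ∨ 0 < F u := by
  induction hu using AddSubmonoid.closure_induction with
  | mem x hx =>
    obtain ⟨i, hi, rfl⟩ := hx
    exact Or.inr (hs i hi)
  | zero => exact Or.inl rfl
  | add x y _ _ hx hy =>
    rcases hx with rfl | hx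
    · simpa using hy
    rcases hy with rfl | hy
    · simpa using Or.inr hx
    · right; rw [map_add]; omega

lemma closure_split [DecidableEq ι] {s : Finset ι} (d : ι) {u : Y}
    (hu : u ∈ AddSubmonoid.closure (P.coroot '' (s : Set ι))) :
    ∃ a : ℕ, ∃ v ∈ AddSubmonoid.closure (P.coroot '' ((s.erase d : Finset ι) : Set ι)),
      u = a • P.coroot d + v := by
  induction hu using AddSubmonoid.closure_induction with
  | mem x hx =>
    obtain ⟨i, hi, rfl⟩ := hx
    by_cases h : i = d
    · exact ⟨1, 0, zero_mem _, by simp [h]⟩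
    · refine ⟨0, P.coroot i, AddSubmonoid.subset_closure ⟨i, ?_, rfl⟩, by simp⟩
      simpa [h] using hi
  | zero => exact ⟨0, 0, zero_mem _, by simp⟩
  | add x y _ _ hx hy =>
    obtain ⟨a, v, hv, rfl⟩ := hx
    obtain ⟨b, w, hw, rfl⟩ := hy
    exact ⟨a + b, v + w, add_mem hv hw, by rw [add_nsmul]; abel⟩

variable [Finite ι]

lemma exists_min_gen : ∃ s : Finset ι, Gen P F s ∧ ∀ t : Finset ι, Gen P F t → s.card ≤ t.card := by
  classical
  have := Fintype.ofFinite ι
  have h0 : Gen P F (Finset.univ.filter fun i => 0 < F (P.coroot i)) := by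
    refine ⟨fun i hi => by simpa using hi, fun b hb => ⟨1, one_pos, ?_⟩⟩
    rw [one_nsmul]
    exact AddSubmonoid.subset_closure ⟨b, by simpa using hb, rfl⟩
  obtain ⟨s, hs, hmin⟩ := (measure Finset.card).wf.has_min {s | Gen P F s} ⟨_, h0⟩
  exact ⟨s, hs, fun t ht => not_lt.mp (hmin t ht)⟩

variable [P.IsReduced]

omit [P.IsReduced] [Finite ι] in
include P in
lemma tfY : Module.IsTorsionFree ℤ Y := by
  have : Module.IsReflexive ℤ Y := .of_isPerfPair P.toLinearMap.flip
  infer_instance

omit [P.IsReduced] [Finite ι] in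
include P in
lemma tfX : Module.IsTorsionFree ℤ X := by
  have : Module.IsReflexive ℤ X := .of_isPerfPair P.toLinearMap
  infer_instance

lemma eq_or_neg_of_smul {i j : ι} {a b : ℤ} (ha : a ≠ 0)
    (h : a • P.coroot i = b • P.coroot j) :
    P.coroot i = P.coroot j ∨ P.coroot i = - P.coroot j := by
  have := tfY P
  have := tfX P
  refine RootPairing.IsReduced.eq_or_eq_neg (P := P.flip) i j ?_
  intro hli
  rw [LinearIndependent.pair_iff] at hli
  have := (hli a (-b) (by simp [h])).1
  exact ha this

/-- A simple reflection permutes the other positive coroots. -/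
lemma simple_perm (hF : ∀ i, F (P.coroot i) ≠ 0) {s : Finset ι} (hs : Gen P F s)
    (hmin : ∀ t : Finset ι, Gen P F t → s.card ≤ t.card) {d b : ι} (hd : d ∈ s)
    (hb : 0 < F (P.coroot b)) (hbd : b ≠ d) :
    0 < F (P.coroot (P.reflectionPerm d b)) := by
  classical
  by_contra hneg
  have hlt : F (P.coroot (P.reflectionPerm d b)) < 0 :=
    lt_of_le_of_ne (not_lt.mp hneg) (hF _)
  set c := P.reflectionPerm (P.reflectionPerm d b) (P.reflectionPerm d b) with hc
  have hcc : P.coroot c = - P.coroot (P.reflectionPerm d b) := by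
    rw [hc, P.coroot_reflectionPerm, P.coreflection_apply_self]
  have hcpos : 0 < F (P.coroot c) := by rw [hcc, map_neg]; omega
  set m : ℤ := P.toLinearMap (P.root d) (P.coroot b) with hm
  have hsum : P.coroot b + P.coroot c = m • P.coroot d := by
    rw [hcc, ← P.reflectionPerm_coroot, ← hm]; abel
  obtain ⟨n1, hn1, h1⟩ := hs.2 b hb
  obtain ⟨n2, hn2, h2⟩ := hs.2 c hcpos
  obtain ⟨a1, u, hu, e1⟩ := closure_split P d h1
  obtain ⟨a2, v, hv, e2⟩ := closure_split P d h2
  set z : ℤ := n1 * n2 * m - n2 * a1 - n1 * a2 with hz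
  have key : z • P.coroot d = n2 • u + n1 • v := by
    have e1' : u = (n1 : ℤ) • P.coroot b - (a1 : ℤ) • P.coroot d := by
      rw [natCast_zsmul, natCast_zsmul, e1]; abel
    have e2' : v = (n2 : ℤ) • P.coroot c - (a2 : ℤ) • P.coroot d := by
      rw [natCast_zsmul, natCast_zsmul, e2]; abel
    have e3 : P.coroot c = m • P.coroot d - P.coroot b := by rw [← hsum]; abel
    rw [e1', e2', e3, hz, ← natCast_zsmul, ← natCast_zsmul]
    module
  have hpos : ∀ i ∈ ((s.erase d : Finset ι) : Set ι), 0 < F (P.coroot i) := fun i hi =>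
    hs.1 i (Finset.mem_of_mem_erase (Finset.mem_coe.mp hi))
  rcases lt_or_ge 0 z with hz0 | hz0
  · have hgen : Gen P F (s.erase d) := by
      refine ⟨fun i hi => hs.1 i (Finset.mem_of_mem_erase hi), fun b' hb' => ?_⟩
      obtain ⟨n, hn, h⟩ := hs.2 b' hb'
      obtain ⟨a, w, hw, e⟩ := closure_split P d h
      refine ⟨z.toNat * n, Nat.mul_pos (by omega) hn, ?_⟩
      have hzz : z.toNat • P.coroot d = n2 • u + n1 • v := by
        rw [← key, ← natCast_zsmul, Int.toNat_of_nonneg hz0.le]
      rw [mul_nsmul', e, nsmul_add, smul_comm, hzz]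
      exact add_mem (nsmul_mem (add_mem (nsmul_mem hu _) (nsmul_mem hv _)) _) (nsmul_mem hw _)
    have := hmin _ hgen
    rw [Finset.card_erase_of_mem hd] at this
    have := Finset.card_pos.mpr ⟨d, hd⟩
    omega
  · have hFd := hs.1 d hd
    have hk := congrArg F key
    simp only [map_zsmul, map_add, map_nsmul, smul_eq_mul, nsmul_eq_mul] at hk
    have hu0 : u = 0 := by
      rcases closure_pos P F hpos hu with h | h
      · exact h
      · exfalso
        have hv0 : 0 ≤ F v := by
          rcases closure_pos P F hpos hv with h' | h'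
          · simp [h']
          · exact h'.le
        have h3 : z * F (P.coroot d) ≤ 0 := mul_nonpos_of_nonpos_of_nonneg hz0 hFd.le
        have h4 : 0 < (n2 : ℤ) * F u := mul_pos (by exact_mod_cast hn2) h
        have h5 : 0 ≤ (n1 : ℤ) * F v := mul_nonneg (by positivity) hv0
        omega
    rw [hu0, add_zero] at e1
    have e1' : (n1 : ℤ) • P.coroot b = (a1 : ℤ) • P.coroot d := by
      rw [natCast_zsmul, natCast_zsmul, e1]
    rcases eq_or_neg_of_smul P (by exact_mod_cast hn1.ne') e1' with h | h
    · exact hbd (P.coroot.injective h)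
    · rw [h, map_neg] at hb; omega

/-- product of simple coreflections along a list -/
def word (l : List ι) : Y ≃ₗ[ℤ] Y := (l.map P.coreflection).prod

omit [Finite ι] [P.IsReduced] in
lemma word_mem (l : List ι) : word P l ∈ WY P := by
  unfold word
  refine Subgroup.list_prod_mem _ ?_
  intro x hx
  obtain ⟨i, -, rfl⟩ := List.mem_map.mp hx
  exact corefl_mem P i

omit [Finite ι] [P.IsReduced] in
lemma word_cons (a : ι) (l : List ι) : word P (a :: l) = P.coreflection a * word P l := by
  simp [word]

omit [Finite ι] [P.IsReduced] in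
lemma word_append (l m : List ι) : word P (l ++ m) = word P l * word P m := by
  simp [word]

omit [Finite ι] [P.IsReduced] in
lemma corefl_mul_self (a : ι) : P.coreflection a * P.coreflection a = 1 := by
  rw [← sq, P.coreflection_sq]

lemma refl_isWord (hF : ∀ i, F (P.coroot i) ≠ 0) {s : Finset ι} (hs : Gen P F s)
    (hmin : ∀ t : Finset ι, Gen P F t → s.card ≤ t.card) (b : ι) :
    ∃ l : List ι, (∀ i ∈ l, i ∈ s) ∧ P.coreflection b = word P l := by
  have := tfY P
  have := tfX P
  have main : ∀ n : ℕ, ∀ b, 0 < F (P.coroot b) → (F (P.coroot b)).toNat = n →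
      ∃ l : List ι, (∀ i ∈ l, i ∈ s) ∧ P.coreflection b = word P l := by
    intro n
    induction n using Nat.strong_induction_on with
    | _ n ih =>
      intro b hb hn
      obtain ⟨m, hm, hmem⟩ := hs.2 b hb
      have hex : ∃ d ∈ s, 0 < P.pairing b d := by
        by_contra hcon
        push Not at hcon
        have : ∀ u ∈ AddSubmonoid.closure (P.coroot '' (s : Set ι)), P.root' b u ≤ 0 := by
          intro u hu
          induction hu using AddSubmonoid.closure_induction with
          | mem x hx =>
            obtain ⟨i, hi, rfl⟩ := hx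
            exact hcon i hi
          | zero => simp
          | add x y _ _ hx hy => rw [map_add]; omega
        have h2 := this _ hmem
        rw [map_nsmul, RootPairing.root'_coroot_eq_pairing, RootPairing.pairing_same] at h2
        simp only [nsmul_eq_mul] at h2
        have : (0 : ℤ) < m := by exact_mod_cast hm
        omega
      obtain ⟨d, hd, hpos⟩ := hex
      by_cases hbd : b = d
      · exact ⟨[d], by simpa using hd, by simp [word, hbd]⟩
      have hpos' : 0 < P.pairing d b := by
        have h := (P.zero_lt_pairingIn_iff' ℤ (i := b) (j := d))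
        have e1 := P.algebraMap_pairingIn ℤ b d
        have e2 := P.algebraMap_pairingIn ℤ d b
        simp only [algebraMap_int_eq, eq_intCast, Int.cast_id] at e1 e2
        rw [e1, e2] at h
        exact h.mp hpos
      have hb' := simple_perm P F hF hs hmin hd hb hbd
      have hlt : F (P.coroot (P.reflectionPerm d b)) < F (P.coroot b) := by
        rw [← P.reflectionPerm_coroot, map_sub, map_zsmul, RootPairing.root_coroot_eq_pairing,
          smul_eq_mul]
        have := mul_pos hpos' (hs.1 d hd)
        omega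
      obtain ⟨l, hl, e⟩ := ih _ (by omega) _ hb' rfl
      refine ⟨d :: (l ++ [d]), ?_, ?_⟩
      · intro i hi
        simp only [List.mem_cons, List.mem_append, List.not_mem_nil, or_false] at hi
        rcases hi with rfl | hi | rfl
        exacts [hd, hl i hi, hd]
      · have hc := (carries_corefl P d b).conj
        rw [word_cons, word_append, ← e, show word P [d] = P.coreflection d by simp [word],
          ← hc, ← mul_assoc, corefl_mul_self, one_mul]
  rcases lt_or_gt_of_ne (hF b) with h | h
  · set c := P.reflectionPerm b b with hc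
    have hcc : P.coroot c = - P.coroot b := by
      rw [hc, P.coroot_reflectionPerm, P.coreflection_apply_self]
    obtain ⟨l, hl, e⟩ := main _ c (by rw [hcc, map_neg]; omega) rfl
    refine ⟨l, hl, ?_⟩
    rw [← e]
    have hcj := (carries_corefl P b b).conj
    rw [← hc] at hcj
    exact mul_right_cancel hcj
  · exact main _ b h rfl

lemma mem_isWord (hF : ∀ i, F (P.coroot i) ≠ 0) {s : Finset ι} (hs : Gen P F s)
    (hmin : ∀ t : Finset ι, Gen P F t → s.card ≤ t.card) {g : Y ≃ₗ[ℤ] Y} (hg : g ∈ WY P) :
    ∃ l : List ι, (∀ i ∈ l, i ∈ s) ∧ g = word P l := by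
  induction hg using Subgroup.closure_induction'' with
  | one => exact ⟨[], by simp, by simp [word]⟩
  | mem x hx =>
    obtain ⟨l, rfl⟩ := hx
    exact refl_isWord P F hF hs hmin l
  | inv_mem x hx =>
    obtain ⟨l, rfl⟩ := hx
    rw [P.coreflection_inv]
    exact refl_isWord P F hF hs hmin l
  | mul x y _ _ hx hy =>
    obtain ⟨l, hl, rfl⟩ := hx
    obtain ⟨m, hm, rfl⟩ := hy
    refine ⟨l ++ m, ?_, (word_append P l m).symm⟩
    intro i hi
    rcases List.mem_append.mp hi with h | h
    exacts [hl i h, hm i h]

lemma exchange (hF : ∀ i, F (P.coroot i) ≠ 0) {s : Finset ι} (hs : Gen P F s)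
    (hmin : ∀ t : Finset ι, Gen P F t → s.card ≤ t.card) {d : ι} (hd : d ∈ s) :
    ∀ l : List ι, (∀ i ∈ l, i ∈ s) → F (word P l (P.coroot d)) < 0 →
      ∃ m : List ι, (∀ i ∈ m, i ∈ s) ∧ m.length + 1 = l.length ∧
        word P l * P.coreflection d = word P m := by
  intro l
  induction l with
  | nil =>
    intro _ h
    have := hs.1 d hd
    simp [word] at h
    omega
  | cons a l ih =>
    intro hl h
    have ha : a ∈ s := hl a (by simp)
    have hl' : ∀ i ∈ l, i ∈ s := fun i hi => hl i (by simp [hi])
    obtain ⟨j, hj⟩ := exists_carries P (word_mem P l) d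
    rcases lt_or_gt_of_ne (hF j) with hneg | hpos
    · obtain ⟨m, hm, hlen, e⟩ := ih hl' (by rw [hj.1]; exact hneg)
      refine ⟨a :: m, ?_, by simp [hlen], ?_⟩
      · intro i hi
        rcases List.mem_cons.mp hi with rfl | hi
        exacts [ha, hm i hi]
      · rw [word_cons, word_cons, mul_assoc, e]
    · have hja : j = a := by
        by_contra hne
        have := simple_perm P F hF hs hmin ha hpos hne
        rw [word_cons, LinearEquiv.mul_apply, hj.1, ← P.coroot_reflectionPerm] at h
        omega
      subst hja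
      refine ⟨l, hl', by simp, ?_⟩
      rw [word_cons, mul_assoc, hj.conj, ← mul_assoc, corefl_mul_self, one_mul]

/-- An element of the Weyl group which keeps all positive coroots positive is trivial. -/
theorem eq_one_of_pos (hF : ∀ i, F (P.coroot i) ≠ 0) {g : Y ≃ₗ[ℤ] Y} (hg : g ∈ WY P)
    (hpos : ∀ i, 0 < F (P.coroot i) → 0 < F (g (P.coroot i))) : g = 1 := by
  obtain ⟨s, hs, hmin⟩ := exists_min_gen P F
  obtain ⟨l, hl, rfl⟩ := mem_isWord P F hF hs hmin hg
  clear hg
  induction hn : l.length using Nat.strong_induction_on generalizing l with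
  | _ n ih =>
    rcases List.eq_nil_or_concat l with rfl | ⟨l', d, rfl⟩
    · simp [word]
    · have hd : d ∈ s := hl d (by simp)
      have hl' : ∀ i ∈ l', i ∈ s := fun i hi => hl i (by simp [hi])
      have hw : word P (l'.concat d) = word P l' * P.coreflection d := by
        simp [word]
      have h1 := hpos d (hs.1 d hd)
      rw [hw, LinearEquiv.mul_apply, P.coreflection_apply_self, map_neg, map_neg] at h1
      obtain ⟨m, hm, hlen, e⟩ := exchange P F hF hs hmin hd l' hl' (by omega)
      rw [hw, e] at hpos ⊢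
      refine ih m.length ?_ m hm hpos rfl
      simp at hn
      omega

end Free

end Vale.Agent.Q008
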