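import Vale.Agent.Q008.PGroupRep

/-! Wild inertia at a valuation with the value group of an algebraically closed field. -/

namespace Vale.Agent.Q008

open Module Polynomial Matrix
open scoped Topology

lemma exists_eigenvector_of_prod {K V : Type*} [Field K] [AddCommGroup V] [Module K V]
    (T : Module.End K V) (s : Finset K) : ∀ z : V, z ≠ 0 →
      aeval T (∏ c ∈ s, (X - C c)) z = 0 → ∃ c ∈ s, ∃ y, y ≠ 0 ∧ T y = c • y := by
  classical
  induction s using Finset.induction_on with
  | empty => intro z hz h; simp at h; exact absurd h hz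
  | insert a s ha ih =>
    intro z hz h
    by_cases hy : aeval T (∏ c ∈ s, (X - C c)) z = 0
    · obtain ⟨c, hc, y, hy⟩ := ih z hz hy
      exact ⟨c, Finset.mem_insert_of_mem hc, y, hy⟩
    · refine ⟨a, Finset.mem_insert_self _ _, _, hy, ?_⟩
      rw [Finset.prod_insert ha, map_mul, Module.End.mul_apply, map_sub, aeval_X, aeval_C,
        LinearMap.sub_apply, Module.algebraMap_end_apply] at h
      exact sub_eq_zero.mp h

section Val

variable {C K L : Type*} [Field C] [Field K] [Field L] [Algebra C K] [Algebra K L]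
  [IsAlgClosed C] (A : ValuationSubring L)

lemma val_mem [Algebra.IsAlgebraic K L]
    (hval : ∀ x : K, ∃ c : C,
      A.valuation (algebraMap K L x) = A.valuation (algebraMap K L (algebraMap C K c)))
    (y : L) : ∃ c : C, A.valuation y = A.valuation (algebraMap K L (algebraMap C K c)) := by
  classical
  by_cases hy : y = 0
  · exact ⟨0, by simp [hy]⟩
  obtain ⟨f, hf0, hf⟩ := Algebra.IsAlgebraic.isAlgebraic (R := K) y
  rw [aeval_eq_sum_range' (Nat.lt_succ_self _)] at hf
  set t : ℕ → L := fun i => f.coeff i • y ^ i with ht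
  have hne : (Finset.range (f.natDegree + 1)).Nonempty := ⟨0, by simp⟩
  obtain ⟨j, hj, hmax⟩ := Finset.exists_max_image _ (fun i => A.valuation (t i)) hne
  have hlead : A.valuation (t f.natDegree) ≠ 0 := by
    rw [Valuation.ne_zero_iff, ht]
    exact smul_ne_zero (leadingCoeff_ne_zero.mpr hf0) (pow_ne_zero _ hy)
  have hj0 : A.valuation (t j) ≠ 0 := by
    intro h0
    have := hmax f.natDegree (by simp)
    rw [h0, le_zero_iff] at this
    exact hlead this
  have hex : ∃ i, i ≠ j ∧ A.valuation (t i) = A.valuation (t j) := by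
    by_contra hcon
    push Not at hcon
    have := A.valuation.map_sum_eq_of_lt hj (f := t) fun i hi => by
      have hi' := Finset.mem_sdiff.mp hi
      exact lt_of_le_of_ne (hmax i hi'.1) (hcon i (by simpa using hi'.2))
    rw [hf, map_zero] at this
    exact hj0 this.symm
  have key : ∀ i j, i < j → A.valuation (t i) = A.valuation (t j) → A.valuation (t j) ≠ 0 →
      ∃ c : C, A.valuation y = A.valuation (algebraMap K L (algebraMap C K c)) := by
    intro i j hij he h0
    obtain ⟨d, rfl⟩ := Nat.exists_eq_add_of_lt hij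
    have hcj : f.coeff (i + d + 1) ≠ 0 := by
      intro h; apply h0; simp [ht, h]
    obtain ⟨c, hc⟩ := hval (f.coeff i / f.coeff (i + d + 1))
    obtain ⟨c', rfl⟩ := IsAlgClosed.exists_pow_nat_eq c (n := d + 1) (by omega)
    refine ⟨c', ?_⟩
    have hvy : A.valuation y ≠ 0 := (Valuation.ne_zero_iff _).mpr hy
    have hvc : A.valuation (algebraMap K L (f.coeff (i + d + 1))) ≠ 0 :=
      (Valuation.ne_zero_iff _).mpr ((_root_.map_ne_zero _).mpr hcj)
    simp only [ht, Algebra.smul_def, map_mul, map_pow] at he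
    rw [map_div₀, map_div₀, map_pow, map_pow, map_pow, div_eq_iff hvc] at hc
    have h1 : A.valuation y ^ (d + 1) =
        A.valuation (algebraMap K L (algebraMap C K c')) ^ (d + 1) := by
      rw [hc, show A.valuation y ^ (i + d + 1) = A.valuation y ^ i * A.valuation y ^ (d + 1) by
        rw [add_assoc, pow_add]] at he
      apply mul_left_cancel₀ (mul_ne_zero hvc (pow_ne_zero i hvy))
      rw [mul_assoc, ← he]
      ac_rfl
    exact (pow_left_inj₀ zero_le zero_le (by omega)).mp h1
  obtain ⟨i, hij, he⟩ := hex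
  rcases lt_or_gt_of_ne hij with h | h
  · exact key i j h he hj0
  · exact key j i h he.symm (he ▸ hj0)

omit [IsAlgClosed C] [Algebra C K] in
lemma inertia_val {g : A.decompositionSubgroup K} (hg : g ∈ A.inertiaSubgroup K) {y : L}
    (hy : A.valuation y ≤ 1) : A.valuation (g.1 y - y) < 1 := by
  let a : A := ⟨y, A.mem_of_valuation_le_one y hy⟩
  have h1 : IsLocalRing.residue A (g • a) = IsLocalRing.residue A a := by
    rw [IsLocalRing.ResidueField.residue_smul]
    have := MonoidHom.mem_ker.mp hg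
    exact DFunLike.congr_fun this (IsLocalRing.residue A a)
  have h2 : g • a - a ∈ IsLocalRing.maximalIdeal A := by
    rw [← IsLocalRing.residue_eq_zero_iff, map_sub, h1, sub_self]
  exact (A.valuation_lt_one_iff _).mp h2

/-- Inertia is pro-`p`. -/
lemma inertia_pow_fix [CharZero C] [Normal K L] {p : ℕ} (hp : p.Prime)
    (hpA : A.valuation (p : L) < 1)
    (hval : ∀ x : K, ∃ c : C,
      A.valuation (algebraMap K L x) = A.valuation (algebraMap K L (algebraMap C K c)))
    (F : IntermediateField K L) [FiniteDimensional K F] [Normal K F]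
    {g : A.decompositionSubgroup K} (hg : g ∈ A.inertiaSubgroup K) :
    ∃ m : ℕ, (g ^ p ^ m).1 ∈ F.fixingSubgroup := by
  classical
  have hN : orderOf (AlgEquiv.restrictNormalHom F g.1) ≠ 0 := (orderOf_pos _).ne'
  obtain ⟨m, N, hpN, hN'⟩ := Nat.exists_eq_pow_mul_and_not_dvd hN p hp.one_lt.ne'
  have hN0 : N ≠ 0 := by rintro rfl; exact hpN (dvd_zero p)
  refine ⟨m, ?_⟩
  set h := g ^ p ^ m with hh
  have hhI : h ∈ A.inertiaSubgroup K := pow_mem hg _
  have hfix : h.1 ^ N ∈ F.fixingSubgroup := by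
    rw [← IntermediateField.restrictNormalHom_ker, MonoidHom.mem_ker, hh, Subgroup.coe_pow,
      ← pow_mul, ← hN', map_pow, pow_orderOf_eq_one]
  rw [IntermediateField.mem_fixingSubgroup_iff] at hfix ⊢
  intro x hx
  by_contra hne
  have : NeZero N := ⟨hN0⟩
  obtain ⟨ζ, hζ⟩ := HasEnoughRootsOfUnity.exists_primitiveRoot C N
  have hζK : IsPrimitiveRoot (algebraMap C K ζ) N := hζ.map_of_injective (algebraMap C K).injective
  let T : Module.End K L := h.1.toLinearMap
  have hTp : ∀ (i : ℕ) (z : L), (T ^ i) z = (h.1 ^ i) z := by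
    intro i
    induction i with
    | zero => intro z; rfl
    | succ i ih => intro z; rw [pow_succ, pow_succ, Module.End.mul_apply, ih]; rfl
  have h1 : (1 : K) ∈ nthRootsFinset N (1 : K) := one_mem_nthRootsFinset (Nat.pos_of_ne_zero hN0)
  have hprod := X_pow_sub_one_eq_prod (Nat.pos_of_ne_zero hN0) hζK
  rw [← Finset.prod_erase_mul _ _ h1] at hprod
  have h2 := congrArg (fun q => aeval T q x) hprod
  simp only [map_sub, map_pow, aeval_X, map_one, map_mul, LinearMap.sub_apply,
    Module.End.mul_apply, Module.End.one_apply, hTp, hfix x hx, sub_self] at h2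
  obtain ⟨c, hc, y, hy0, hy⟩ := exists_eigenvector_of_prod T _ (T x - x) (sub_ne_zero.mpr hne)
    (by rw [map_sub]; exact h2.symm)
  obtain ⟨hc1, hcN⟩ := Finset.mem_erase.mp hc
  rw [mem_nthRootsFinset (Nat.pos_of_ne_zero hN0)] at hcN
  obtain ⟨c', hc'⟩ := val_mem A hval y
  set e : L := algebraMap K L (algebraMap C K c') with he
  have hve : A.valuation e ≠ 0 := by rw [← hc']; exact (Valuation.ne_zero_iff _).mpr hy0
  have hvy : A.valuation (y / e) = 1 := by rw [map_div₀, hc', div_self hve]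
  have h3 := inertia_val A hhI hvy.le
  have hy' : h.1 y = algebraMap K L c * y := by rw [← Algebra.smul_def]; exact hy
  have h4 : h.1 (y / e) - y / e = (algebraMap K L c - 1) * (y / e) := by
    rw [map_div₀, hy', he, AlgEquiv.commutes]; ring
  rw [h4, map_mul, hvy, mul_one] at h3
  set u : L := algebraMap K L c with hu
  have huN : u ^ N = 1 := by rw [hu, ← map_pow, hcN, map_one]
  have hu1 : u ≠ 1 := fun h => hc1 ((algebraMap K L).injective (by rw [← hu, h, map_one]))
  have hule : A.valuation u ≤ 1 := by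
    have : u = (u - 1) + 1 := by ring
    rw [this]
    exact (Valuation.map_add _ _ _).trans (max_le h3.le (by simp))
  have hpow : ∀ i : ℕ, A.valuation (1 - u ^ i) < 1 := by
    intro i
    induction i with
    | zero => simp
    | succ i ih =>
      have : 1 - u ^ (i + 1) = (1 - u ^ i) * u + -(u - 1) := by ring
      rw [this]
      refine (Valuation.map_add _ _ _).trans_lt (max_lt ?_ (by rwa [Valuation.map_neg]))
      rw [map_mul]
      exact (mul_le_of_le_one_right' hule).trans_lt ih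
  have hsum : ∑ i ∈ Finset.range N, u ^ i = 0 := by
    have := mul_geom_sum u N
    rw [huN, sub_self] at this
    exact (mul_eq_zero.mp this).resolve_left (sub_ne_zero.mpr hu1)
  have hvN : A.valuation (N : L) < 1 := by
    have : (N : L) = ∑ i ∈ Finset.range N, (1 - u ^ i) := by
      rw [Finset.sum_sub_distrib, hsum]; simp
    rw [this]
    exact A.valuation.map_sum_lt one_ne_zero fun i _ => hpow i
  obtain ⟨a, b, hab⟩ : IsCoprime (p : ℤ) (N : ℤ) :=
    Nat.isCoprime_iff_coprime.mpr (hp.coprime_iff_not_dvd.mpr hpN)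
  have hint : ∀ z : ℤ, A.valuation (z : L) ≤ 1 := fun z =>
    (A.valuation_le_one_iff _).mpr (intCast_mem A z)
  have h5 : (1 : L) = a * p + b * N := by exact_mod_cast congrArg (Int.cast : ℤ → L) hab.symm
  have h6 : A.valuation (1 : L) < 1 := by
    rw [h5]
    refine (Valuation.map_add _ _ _).trans_lt (max_lt ?_ ?_)
    · rw [map_mul]; exact (mul_le_of_le_one_left' (hint a)).trans_lt hpA
    · rw [map_mul]; exact (mul_le_of_le_one_left' (hint b)).trans_lt hvN
  simp at h6

end Val

section Norm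

variable {E : Type*} [NormedField E] [IsUltrametricDist E] {r : ℕ}

lemma norm_mulVec_lt {M : Matrix (Fin r) (Fin r) E} (hM : ∀ i j, ‖M i j‖ < 1) {w : Fin r → E}
    (hw : w ≠ 0) : ‖M *ᵥ w‖ < ‖w‖ := by
  have hpos : 0 < ‖w‖ := norm_pos_iff.mpr hw
  rw [pi_norm_lt_iff hpos]
  intro i
  have hne : (Finset.univ : Finset (Fin r)).Nonempty := ⟨i, Finset.mem_univ i⟩
  obtain ⟨j, -, hj⟩ := IsUltrametricDist.exists_norm_finsetSum_le_of_nonempty hne
    (fun j => M i j * w j)
  refine lt_of_le_of_lt hj ?_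
  rw [norm_mul]
  calc ‖M i j‖ * ‖w j‖ ≤ ‖M i j‖ * ‖w‖ := by gcongr; exact norm_le_pi_norm w j
    _ < 1 * ‖w‖ := by gcongr; exact hM i j
    _ = ‖w‖ := one_mul _

omit [IsUltrametricDist E] in
lemma norm_pow_sub {V : Type*} [NormedAddCommGroup V] [IsUltrametricDist V] [NormedSpace E V]
    (a : Module.End E V) (ha : ∀ w, w ≠ 0 → ‖a w - w‖ < ‖w‖) {N : ℕ} (hN : ‖(N : E)‖ = 1)
    (v : V) : ‖(a ^ N) v - v‖ = ‖a v - v‖ := by
  have hle : ∀ w, ‖a w‖ ≤ ‖w‖ := by
    intro w
    by_cases hw : w = 0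
    · simp [hw]
    · have : a w = (a w - w) + w := by abel
      rw [this]
      exact (IsUltrametricDist.norm_add_le_max _ _).trans (max_le (ha w hw).le le_rfl)
  have hpow : ∀ (i : ℕ) w, w ≠ 0 → ‖(a ^ i) w - w‖ < ‖w‖ := by
    intro i w hw
    induction i with
    | zero => simpa using hw
    | succ i ih =>
      have : (a ^ (i + 1)) w - w = a ((a ^ i) w - w) + (a w - w) := by
        rw [pow_succ', Module.End.mul_apply, map_sub]; abel
      rw [this]
      exact (IsUltrametricDist.norm_add_le_max _ _).trans_lt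
        (max_lt ((hle _).trans_lt ih) (ha w hw))
  set w := a v - v with hw
  have h1 : (a ^ N) v - v = ∑ i ∈ Finset.range N, (a ^ i) w := by
    have := congrArg (fun f : Module.End E V => f v) (geom_sum_mul a N)
    simp only [Module.End.mul_apply, LinearMap.sub_apply, Module.End.one_apply,
      LinearMap.sum_apply] at this
    exact this.symm
  by_cases hw0 : w = 0
  · simp [h1, hw0]
  have hN0 : N ≠ 0 := by rintro rfl; simp at hN
  have h2 : ∑ i ∈ Finset.range N, (a ^ i) w =
      (N : E) • w + ∑ i ∈ Finset.range N, ((a ^ i) w - w) := by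
    rw [Finset.sum_sub_distrib, Finset.sum_const, Finset.card_range, Nat.cast_smul_eq_nsmul]
    abel
  obtain ⟨j, -, hj⟩ := IsUltrametricDist.exists_norm_finsetSum_le_of_nonempty
    (Finset.nonempty_range_iff.mpr hN0) (fun i => (a ^ i) w - w)
  have h3 : ‖(N : E) • w‖ = ‖w‖ := by rw [norm_smul, hN, one_mul]
  have h4 := hj.trans_lt (hpow j w hw0)
  rw [h1, h2, IsUltrametricDist.norm_add_eq_max_of_norm_ne_norm (by rw [h3]; exact h4.ne'), h3,
    max_eq_left h4.le]

end Norm

theorem wild_line {C K L : Type*} [Field C] [Field K] [Field L] [Algebra C K] [Algebra K L]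
    [IsAlgClosed C] [CharZero C] [IsGalois K L] (A : ValuationSubring L) {p : ℕ}
    [hp : Fact p.Prime] (hpA : A.valuation (p : L) < 1)
    (hval : ∀ x : K, ∃ c : C,
      A.valuation (algebraMap K L x) = A.valuation (algebraMap K L (algebraMap C K c)))
    {E : Type*} [NormedField E] [IsUltrametricDist E] [IsAlgClosed E] [CharZero E]
    (hpE : ‖(p : E)‖ = 1) {r : ℕ} (hr : ¬ p ∣ r)
    (ρ : A.decompositionSubgroup K →* GL (Fin r) E) (hρ : Continuous ρ) :
    ∃ (D' : Subgroup (A.decompositionSubgroup K)) (n : ℕ) (y : L)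
      (ψ : rootsOfUnity (p ^ n) L ≃* rootsOfUnity (p ^ n) E) (V₁ V₂ : Submodule E (Fin r → E)),
      IsOpen (D' : Set (A.decompositionSubgroup K)) ∧ A.inertiaSubgroup K ≤ D' ∧ y ≠ 0 ∧
      (∀ g ∈ D', g.1 (y ^ p ^ n) = y ^ p ^ n) ∧ IsCompl V₁ V₂ ∧ ¬ p ∣ finrank E V₁ ∧
      (∀ g ∈ D', (∀ v ∈ V₁, (ρ g).1 *ᵥ v ∈ V₁) ∧ ∀ v ∈ V₂, (ρ g).1 *ᵥ v ∈ V₂) ∧
      ∀ g ∈ A.inertiaSubgroup K, ∃ ζ : rootsOfUnity (p ^ n) L, g.1 y = (ζ.1 : L) * y ∧
        ∀ v ∈ V₁, (ρ g).1 *ᵥ v = ((ψ ζ).1 : E) • v := by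
  classical
  set I := A.inertiaSubgroup K with hI
  have hIn : I.Normal := MonoidHom.normal_ker _
  have hnhds : ∀ O : Set (A.decompositionSubgroup K), IsOpen O → 1 ∈ O →
      ∃ F : IntermediateField K L, FiniteDimensional K F ∧ Normal K F ∧
        ∀ g : A.decompositionSubgroup K, g.1 ∈ F.fixingSubgroup → g ∈ O := by
    intro O hO h1
    obtain ⟨s, hs, rfl⟩ := isOpen_induced_iff.mp hO
    obtain ⟨F, h1, h2, h3⟩ := (krullTopology_mem_nhds_one_iff_of_normal K L s).mp (hs.mem_nhds h1)
    exact ⟨F, h1, h2, fun g hg => h3 hg⟩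
  have hcont : Continuous fun g => ((ρ g).1 : Matrix (Fin r) (Fin r) E) :=
    Units.continuous_val.comp hρ
  obtain ⟨F, hF1, hF2, hF⟩ := hnhds {g | ∀ i j, ‖((ρ g).1 - 1) i j‖ < 1} (by
    simp only [Set.ofPred_forall]
    refine isOpen_iInter_of_finite fun i => isOpen_iInter_of_finite fun j => ?_
    exact isOpen_lt ((hcont.sub continuous_const).matrix_elem i j).norm continuous_const)
    (by intro i j; simp)
  let R : A.decompositionSubgroup K →* Module.End E (Fin r → E) :=
    (Matrix.toLinAlgEquiv' : Matrix (Fin r) (Fin r) E ≃ₐ[E] _).toMonoidHom.comp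
      ((Units.coeHom _).comp ρ)
  have hR : ∀ g v, R g v = (ρ g).1 *ᵥ v := fun g v => rfl
  let U : Subgroup (A.decompositionSubgroup K) := F.fixingSubgroup.comap (Subgroup.subtype _)
  have hUn : U.Normal := by
    have : F.fixingSubgroup.Normal := by
      rw [← IntermediateField.restrictNormalHom_ker]; infer_instance
    exact this.comap _
  have hkill : ∀ g ∈ I, g ∈ U → R g = 1 := by
    intro g hgI hgU
    refine LinearMap.ext fun v => ?_
    by_contra hne
    have ha : ∀ w, w ≠ 0 → ‖R g w - w‖ < ‖w‖ := by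
      intro w hw
      have := norm_mulVec_lt (hF g hgU) hw
      rwa [Matrix.sub_mulVec, Matrix.one_mulVec] at this
    have hε : 0 < ‖R g v - v‖ := norm_pos_iff.mpr (sub_ne_zero.mpr hne)
    obtain ⟨F', h1, h2, h3⟩ := hnhds {g' | ‖(ρ g').1 *ᵥ v - v‖ < ‖R g v - v‖}
      (isOpen_lt ((hcont.matrix_mulVec continuous_const).sub continuous_const).norm
        continuous_const) (by simpa using hε)
    obtain ⟨m, hm⟩ := inertia_pow_fix A hp.out hpA hval F' hgI
    have h4 := h3 _ hm
    rw [Set.mem_ofPred_eq, ← hR, map_pow, norm_pow_sub (R g) ha (by simp [hpE])] at h4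
    exact lt_irrefl _ h4
  have hcomm : ∀ u ∈ U, ∀ g ∈ I, Commute (R u) (R g) := by
    intro u hu g hg
    have h1 : R (u * g * u⁻¹ * g⁻¹) = 1 := by
      refine hkill _ (mul_mem (hIn.conj_mem g hg u) (inv_mem hg)) ?_
      have := mul_mem hu (hUn.conj_mem _ (inv_mem hu) g)
      simpa only [mul_assoc] using this
    have h3 : u * g = u * g * u⁻¹ * g⁻¹ * (g * u) := by group
    rw [Commute, SemiconjBy, ← map_mul, ← map_mul, h3, map_mul, h1, one_mul]
  let π : I →* Gal(F/K) :=
    (AlgEquiv.restrictNormalHom F).comp ((Subgroup.subtype _).comp I.subtype)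
  have hπ : ∀ g : I, g ∈ π.ker ↔ g.1 ∈ U := by
    intro g
    rw [MonoidHom.mem_ker]
    change _ ↔ g.1.1 ∈ F.fixingSubgroup
    rw [← IntermediateField.restrictNormalHom_ker, MonoidHom.mem_ker]
    rfl
  let G := I ⧸ π.ker
  have hGfin : Finite G := Finite.of_injective _ (QuotientGroup.kerLift_injective π)
  have hGp : IsPGroup p G := by
    intro x
    obtain ⟨g, rfl⟩ := QuotientGroup.mk_surjective x
    obtain ⟨m, hm⟩ := inertia_pow_fix A hp.out hpA hval F g.2
    refine ⟨m, ?_⟩
    rw [← QuotientGroup.mk_pow, QuotientGroup.eq_one_iff, hπ]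
    exact hm
  let RG : Representation E G (Fin r → E) :=
    QuotientGroup.lift π.ker (R.comp I.subtype) fun g hg => hkill g.1 g.2 ((hπ g).mp hg)
  have hRG : ∀ g : I, RG (g : G) = R g.1 := fun g => rfl
  have hpE0 : (p : E) ≠ 0 := by exact_mod_cast hp.out.ne_zero
  obtain ⟨θ, hθ⟩ := exists_char hGp hpE0 r (Fin r → E) RG (by simp) hr
  obtain ⟨n, hn⟩ := IsPGroup.iff_card.mp hGp
  obtain ⟨V₂, hcompl, hV₂G, hV₂T⟩ := exists_compl (by rw [hn]; simp [hp.out.ne_zero]) RG θ
  have : NeZero (p ^ n) := ⟨pow_ne_zero _ hp.out.ne_zero⟩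
  obtain ⟨ζC, hζC⟩ := HasEnoughRootsOfUnity.exists_primitiveRoot C (p ^ n)
  have hζL : IsPrimitiveRoot (algebraMap K L (algebraMap C K ζC)) (p ^ n) :=
    (hζC.map_of_injective (algebraMap C K).injective).map_of_injective (algebraMap K L).injective
  obtain ⟨ζE, hζE⟩ := HasEnoughRootsOfUnity.exists_primitiveRoot E (p ^ n)
  let ψ : rootsOfUnity (p ^ n) L ≃* rootsOfUnity (p ^ n) E :=
    mulEquivOfCyclicCardEq (hζL.card_rootsOfUnity.trans hζE.card_rootsOfUnity.symm)
  have hfixζ : ∀ (σ : Gal(L/K)) (ζ : rootsOfUnity (p ^ n) L), σ (ζ.1 : L) = ζ.1 := by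
    intro σ ζ
    obtain ⟨i, -, hi⟩ := hζL.eq_pow_of_pow_eq_one ((mem_rootsOfUnity' _ _).mp ζ.2)
    rw [← hi, map_pow, AlgEquiv.commutes]
  let θ' : G →* rootsOfUnity (p ^ n) E := θ.codRestrict _ fun g => by
    rw [mem_rootsOfUnity, ← map_pow, ← hn, pow_card_eq_one', map_one]
  let χ : G →* rootsOfUnity (p ^ n) L := ψ.symm.toMonoidHom.comp θ'
  let f : G → (F →* L) := fun g =>
    (algebraMap F L).toMonoidHom.comp (QuotientGroup.kerLift π g).toMulEquiv.toMonoidHom
  have hf : ∀ g x, f g x = (QuotientGroup.kerLift π g x : F) := fun g x => rfl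
  have hfinj : Function.Injective f := by
    intro a b hab
    apply QuotientGroup.kerLift_injective π
    ext x
    rw [← hf, ← hf, hab]
  have hli := (linearIndependent_monoidHom F L).comp f hfinj
  have := Fintype.ofFinite G
  have hex : ∃ x : F, ∑ g : G, (((χ g⁻¹).1 : Lˣ) : L) * f g x ≠ 0 := by
    by_contra hcon
    push Not at hcon
    have := Fintype.linearIndependent_iff.mp hli (fun g => (((χ g⁻¹).1 : Lˣ) : L))
      (by ext x; simpa [Finset.sum_apply] using hcon x) 1
    exact Units.ne_zero _ this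
  obtain ⟨x, hx⟩ := hex
  set y := ∑ g : G, (((χ g⁻¹).1 : Lˣ) : L) * f g x with hy
  have hyI : ∀ h : I, h.1.1 y = (((χ h).1 : Lˣ) : L) * y := by
    intro h
    rw [hy, map_sum, Finset.mul_sum]
    refine Fintype.sum_equiv (Equiv.mulLeft (h : G)) _ _ fun g => ?_
    have e1 : h.1.1 (f g x) = f ((h : G) * g) x := by
      rw [hf, hf, map_mul, QuotientGroup.kerLift_mk, AlgEquiv.mul_apply]
      exact (AlgEquiv.restrictNormal_commutes h.1.1 F _).symm
    rw [map_mul, hfixζ, e1, Equiv.coe_mulLeft, ← mul_assoc, ← Units.val_mul, ← Subgroup.coe_mul,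
      _root_.mul_inv_rev, map_mul χ, mul_comm (χ g⁻¹), ← mul_assoc, ← map_mul χ, mul_inv_cancel,
      map_one, one_mul]
  have hyU : ∀ u ∈ U, u.1 y = y := by
    intro u hu
    rw [hy, map_sum]
    refine Finset.sum_congr rfl fun g _ => ?_
    rw [map_mul, hfixζ, hf, (IntermediateField.mem_fixingSubgroup_iff F u.1).mp hu _ (Subtype.prop _)]
  refine ⟨I ⊔ U, n, y, ψ, eig RG θ, V₂, ?_, le_sup_left, hx, ?_, hcompl, hθ, ?_, ?_⟩
  · refine Subgroup.isOpen_mono le_sup_right ?_
    exact F.fixingSubgroup_isOpen.preimage continuous_subtype_val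
  · intro g hg
    obtain ⟨i, hi, u, hu, rfl⟩ := Subgroup.mem_sup_of_normal_right.mp hg
    rw [Subgroup.coe_mul, AlgEquiv.mul_apply, map_pow, hyU u hu, map_pow, hyI ⟨i, hi⟩, mul_pow,
      (mem_rootsOfUnity' _ _).mp (χ _).2, one_mul]
  · intro g hg
    obtain ⟨i, hi, u, hu, rfl⟩ := Subgroup.mem_sup_of_normal_right.mp hg
    have hc : ∀ g : G, Commute (R u) (RG g) := by
      intro g
      obtain ⟨g, rfl⟩ := QuotientGroup.mk_surjective g
      exact hcomm u hu g.1 g.2
    constructor
    · intro v hv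
      rw [← hR, map_mul, Module.End.mul_apply]
      have h1 : R u v ∈ eig RG θ := fun g => by
        rw [← Module.End.mul_apply, ← (hc g).eq, Module.End.mul_apply, hv g, map_smul]
      rw [← hRG ⟨i, hi⟩, h1]
      exact Submodule.smul_mem _ _ h1
    · intro v hv
      rw [← hR, map_mul, Module.End.mul_apply, ← hRG ⟨i, hi⟩]
      exact hV₂G _ _ (hV₂T _ hc v hv)
  · intro g hg
    refine ⟨χ ((⟨g, hg⟩ : I) : G), hyI ⟨g, hg⟩, fun v hv => ?_⟩
    rw [← hR, ← hRG ⟨g, hg⟩, hv]
    congr 2
    simp [χ, θ']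

end Vale.Agent.Q008
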